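import Vale.Agent.P004C.An.Tx

/-!
# P004 C, block AN: the degree of the fundamental cycle
-/

set_option autoImplicit false
set_option linter.all false

open Finset Filter

noncomputable section

namespace Vale.Agent.P004C.An

namespace Dg

theorem ev_co {V ι : Type*} {n : ℕ} {F : Filter ι} {Φ Ψ : ι → (Fin n → V) → ℂ}
    (h : ∀ b, ∀ᶠ t in F, Φ t b = Ψ t b) (c : Ch V) : ∀ᶠ t in F, co (Φ t) c = co (Ψ t) c := by
  refine c.induction_on (by simp) (fun L => ?_) (fun L k => ?_) fun x z k k' => ?_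
  · by_cases k : L.length = n
    · obtain ⟨a, rfl⟩ := ex_ofFn k
      simpa only [co_ofFn] using h a
    · simp only [co_ne _ k, eventually_true]
  · filter_upwards [k] with t k
    rw [map_neg, map_neg, k]
  · filter_upwards [k, k'] with t k k'
    rw [map_add, map_add, k, k']

theorem co_zero {V : Type*} {n : ℕ} (c : Ch V) : co (fun _ : Fin n → V => (0 : ℂ)) c = 0 :=
  (co_ext (φ := 0) (fun _ => rfl) (fun _ _ => rfl) c).symm

theorem tel0 (h : ℕ → ℂ) {A : ℂ} (k : ∀ᶠ n in atTop, h n = A) :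
    HasSum (fun n => h (n + 1) - h n) (A - h 0) := by
  obtain ⟨N, k⟩ := eventually_atTop.1 k
  rw [← k N le_rfl, ← sum_range_sub]
  refine hasSum_sum_of_ne_finset_zero fun n m => ?_
  rw [mem_range, not_lt] at m
  rw [k n m, k _ (m.trans n.le_succ), sub_self]

theorem tel (g : ℤ → ℂ) {A B : ℂ} (hA : ∀ᶠ M in atTop, g M = A) (hB : ∀ᶠ M in atBot, g M = B) :
    HasSum (fun M => g (M + 1) - g M) (A - B) := by
  have h1 := tel0 (fun n => g n) (tendsto_natCast_atTop_atTop.eventually hA)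
  have h2 := (tel0 (fun n => g (-n))
    ((tendsto_neg_atTop_atBot.comp tendsto_natCast_atTop_atTop).eventually hB)).neg
  have := HasSum.of_nat_of_neg_add_one (f := fun M => g (M + 1) - g M) (m := A - g 0)
    (m' := -(B - g 0)) (by simpa using h1) (by simpa using h2)
  convert this using 1
  ring

theorem bd_lin {ι : Type} [Fintype ι] (l : (ι → ℝ) →ₗ[ℝ] ℝ) :
    ∃ N : ℝ, ∀ (w : ι → ℝ) (C : ℝ), 0 ≤ C → (∀ i, |w i| ≤ C) → |l w| ≤ N * C :=
  ⟨‖LinearMap.toContinuousLinearMap l‖, fun w C h k =>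
    ((LinearMap.toContinuousLinearMap l).le_opNorm w).trans
      (mul_le_mul_of_nonneg_left ((pi_norm_le_iff_of_nonneg h).2 k) (norm_nonneg _))⟩

variable {U : Type} [CommGroup U] {n p : ℕ}

/-- the determinant cochain -/
def K (σ : U → Fin n → ℂ) : Ch U →+ ℂ :=
  co fun a : Fin n → U => (Matrix.of fun j => σ (a j)).det

theorem K_tr (σ : U → Fin n → ℂ) (u : U) (c : Ch U) :
    K σ (tr u c) = co (fun a : Fin n → U => (Matrix.of fun j => σ (u * a j)).det) c :=
  co_mp _ _ c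

theorem K_bd (ρ : U → Fin (n + 1) → ℂ) (h : ∀ u, ∑ i, ρ u i = 1) (i₀ : Fin (n + 1)) (c : Ch U) :
    K ρ c = (-1) ^ (i₀ : ℕ) * K (fun u i => ρ u (i₀.succAbove i)) (bd c) := by
  unfold K
  rw [co_bd, ← AddMonoidHom.coe_mulLeft, map_co]
  refine congrArg (co · c) (funext fun a => ?_)
  have h1 := Matrix.det_updateCol_sum (Matrix.of fun j => ρ (a j)) i₀ fun _ => (1 : ℂ)
  rw [one_smul] at h1
  rw [← h1, Matrix.det_succ_column _ i₀, AddMonoidHom.coe_mulLeft, mul_sum]
  refine sum_congr rfl fun i _ => ?_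
  rw [Matrix.updateCol_self, Matrix.submatrix_updateCol_succAbove]
  simp only [one_smul, Matrix.of_apply, h, zsmul_eq_mul, pow_add]
  push_cast
  rw [mul_one, mul_comm ((-1 : ℂ) ^ (i : ℕ)), mul_assoc]
  rfl

section key

variable {ι : Type} [Fintype ι] {y : U → ι → ℝ} (hy : ∀ u v, y (u * v) = y u + y v)
  {s : Fin n → ι} {σ : U → Fin n → ℂ} {c : ℝ}
  (hσ : ∀ u i i', σ u i ≠ 0 → y u i' ≤ y u (s i) + c)

include hy hσ

theorem key0 (b : Fin p → U) :
    ∃ C, 0 ≤ C ∧ ∀ u j i i', σ (u * b j) i ≠ 0 → y u i' ≤ y u (s i) + C := by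
  refine ⟨|c| + 2 * ‖fun j => y (b j)‖, by positivity, fun u j i i' k => ?_⟩
  have h1 := hσ _ i i' k
  have h2 : ∀ t, |y (b j) t| ≤ ‖fun j => y (b j)‖ := fun t =>
    (norm_le_pi_norm (y (b j)) t).trans (norm_le_pi_norm (fun j => y (b j)) j)
  rw [hy, Pi.add_apply, Pi.add_apply] at h1
  linarith [abs_le.1 (h2 i'), abs_le.1 (h2 (s i)), le_abs_self c]

theorem key (b : Fin n → U) : ∃ C, 0 ≤ C ∧ ∀ u, (Matrix.of fun j => σ (u * b j)).det ≠ 0 →
    ∀ i i', y u i' ≤ y u (s i) + C := by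
  obtain ⟨C, h0, h⟩ := key0 hy hσ b
  refine ⟨C, h0, fun u k i i' => ?_⟩
  by_contra k'
  exact k (Matrix.det_eq_zero_of_column_eq_zero i fun j => by_contra fun e => k' (h u j i i' e))

end key

/-- the monomial -/
def E (ε : Fin p → U) (m : Fin p → ℤ) : U := ∏ j, ε j ^ m j

theorem E_add (ε : Fin p → U) (m m' : Fin p → ℤ) : E ε (m + m') = E ε m * E ε m' := by
  simp [E, zpow_add, prod_mul_distrib]

theorem E_single (ε : Fin p → U) (j : Fin p) : E ε (Pi.single j 1) = ε j := by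
  rw [E, prod_eq_single j (fun i _ h => by simp [h]) (by simp)]
  simp

theorem lin_E {ι : Type} {y : U → ι → ℝ} (hy : ∀ u v, y (u * v) = y u + y v) (ε : Fin p → U)
    (m : Fin p → ℤ) : y (E ε m) = ∑ j, (m j : ℝ) • y (ε j) := by
  let Y : U →* Multiplicative (ι → ℝ) := MonoidHom.mk' (fun u => .ofAdd (y u)) fun u v => by
    rw [hy, ofAdd_add]
  have : y (E ε m) = (Y (E ε m)).toAdd := rfl
  rw [this, E, map_prod, toAdd_prod]
  refine sum_congr rfl fun j _ => ?_
  rw [map_zpow, toAdd_zpow, Int.cast_smul_eq_zsmul]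
  rfl

/-- dual forms -/
theorem ex_dual {y : U → Fin (p + 1) → ℝ} {ε : Fin p → U}
    (li : LinearIndependent ℝ (Fin.cons 1 fun j => y (ε j) : Fin (p + 1) → Fin (p + 1) → ℝ))
    (j : Fin p) : ∃ l : (Fin (p + 1) → ℝ) →ₗ[ℝ] ℝ, l 1 = 0 ∧
      ∀ i, l (y (ε i)) = if i = j then 1 else 0 := by
  let B := basisOfLinearIndependentOfCardEqFinrank li (by simp)
  have hB : ∀ i, B i = (Fin.cons 1 fun j => y (ε j) : Fin (p + 1) → Fin (p + 1) → ℝ) i := fun i =>
    congrFun (coe_basisOfLinearIndependentOfCardEqFinrank li _) i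
  refine ⟨B.coord j.succ, ?_, fun i => ?_⟩
  · rw [show (1 : Fin (p + 1) → ℝ) = B 0 from (hB 0).symm, Module.Basis.coord_apply,
      B.repr_self_apply, if_neg (Fin.succ_ne_zero j).symm]
  · rw [show y (ε i) = B i.succ from (hB i.succ).symm, Module.Basis.coord_apply,
      B.repr_self_apply]
    simp only [Fin.succ_inj]

/-- finite supports -/
theorem fin {y : U → Fin (p + 1) → ℝ} (hy : ∀ u v, y (u * v) = y u + y v) {ε : Fin p → U}
    (li : LinearIndependent ℝ (Fin.cons 1 fun j => y (ε j) : Fin (p + 1) → Fin (p + 1) → ℝ))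
    {σ : U → Fin (p + 1) → ℂ} {c : ℝ} (hσ : ∀ u i i', σ u i ≠ 0 → y u i' ≤ y u i + c) (z : Ch U) :
    Summable fun m => K σ (tr (E ε m) z) := by
  refine summable_of_hasFiniteSupport ?_
  have : ∀ᶠ m in cofinite, K σ (tr (E ε m) z) = 0 := by
    simp only [K_tr]
    refine (ev_co (Ψ := fun _ _ => 0) (fun b => ?_) z).mono fun m k => k.trans (co_zero z)
    obtain ⟨C, h0, h⟩ := key (s := id) hy hσ b
    choose l l1 l2 using ex_dual li
    choose N hN using fun j => bd_lin (l j)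
    refine (Set.finite_Icc (fun j => -⌈N j * C⌉) fun j => ⌈N j * C⌉).subset fun m k => ?_
    have h1 : ∀ j, |(m j : ℝ)| ≤ N j * C := fun j => by
      have := hN j (y (E ε m) - y (E ε m) 0 • 1) C h0 fun i => by
        have h2 := h _ k i 0
        have h3 := h _ k 0 i
        simp only [id, Pi.sub_apply, Pi.smul_apply, Pi.one_apply, smul_eq_mul, mul_one] at h2 h3 ⊢
        exact abs_le.2 ⟨by linarith, by linarith⟩
      rw [map_sub, map_smul, l1, smul_zero, sub_zero, lin_E hy, map_sum] at this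
      simpa [l2] using this
    have h2 : ∀ j, |m j| ≤ ⌈N j * C⌉ := fun j => by
      have := (h1 j).trans (Int.le_ceil _)
      exact_mod_cast this
    exact ⟨fun j => (abs_le.1 (h2 j)).1, fun j => (abs_le.1 (h2 j)).2⟩
  exact this

theorem est {l : (Fin (n + 2) → ℝ) →ₗ[ℝ] ℝ} (h : l 1 = 0) (i₀ : Fin (n + 2)) {C : ℝ} (h0 : 0 ≤ C) :
    ∃ D, ∀ v : Fin (n + 2) → ℝ, (∀ i i', v (i₀.succAbove i') ≤ v (i₀.succAbove i) + C) →
      |l (Pi.single i₀ 1) * l v - l (Pi.single i₀ 1) ^ 2 * (v i₀ - v (i₀.succAbove 0))| ≤ D := by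
  obtain ⟨N, hN⟩ := bd_lin l
  refine ⟨|l (Pi.single i₀ 1)| * (N * C), fun v k => ?_⟩
  have := hN (v - v (i₀.succAbove 0) • 1 - (v i₀ - v (i₀.succAbove 0)) • Pi.single i₀ 1) C h0
    (Fin.succAboveCases i₀ (by simpa using h0) fun i => by
      simp only [Pi.sub_apply, Pi.smul_apply, Pi.one_apply, smul_eq_mul, mul_one,
        Pi.single_eq_of_ne (i₀.succAbove_ne i), mul_zero, sub_zero]
      exact abs_le.2 ⟨by linarith [k i 0], by linarith [k 0 i]⟩)
  rw [map_sub, map_sub, map_smul, map_smul, h, smul_zero, sub_zero, smul_eq_mul] at this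
  refine le_trans (le_of_eq ?_) (mul_le_mul_of_nonneg_left this (abs_nonneg _))
  rw [← abs_mul]
  congr 1
  ring

theorem li_cut {y : U → Fin (p + 2) → ℝ} {ε : Fin (p + 1) → U}
    (li : LinearIndependent ℝ (Fin.cons 1 fun j => y (ε j) : Fin (p + 2) → Fin (p + 2) → ℝ))
    {l : (Fin (p + 2) → ℝ) →ₗ[ℝ] ℝ} (h1 : l 1 = 0) (h2 : ∀ j : Fin p, l (y (ε j.succ)) = 0)
    {i₀ : Fin (p + 2)} (h3 : l (Pi.single i₀ 1) ≠ 0) :
    LinearIndependent ℝ (Fin.cons 1 fun j i => y (ε j.succ) (i₀.succAbove i) :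
      Fin (p + 1) → Fin (p + 1) → ℝ) := by
  rw [Fintype.linearIndependent_iff] at li ⊢
  intro t ht
  set v : Fin (p + 2) → ℝ := t 0 • 1 + ∑ j : Fin p, t j.succ • y (ε j.succ) with hv
  have k1 : v = v i₀ • Pi.single i₀ 1 := by
    funext i
    refine Fin.succAboveCases i₀ (by simp) (fun i => ?_) i
    have := congrFun ht i
    simp only [Fin.sum_univ_succ, Fin.cons_zero, Fin.cons_succ, Pi.add_apply, Pi.smul_apply,
      Finset.sum_apply, Pi.zero_apply, Pi.one_apply] at this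
    simp only [Pi.smul_apply, Pi.single_eq_of_ne (i₀.succAbove_ne i), smul_zero]
    simpa [hv] using this
  have k2 : l v = 0 := by simp [hv, h1, h2]
  rw [k1, map_smul, smul_eq_mul, mul_eq_zero, or_iff_left h3] at k2
  rw [k2, zero_smul] at k1
  have := li (Fin.cons (t 0) (Fin.cons 0 fun j => t j.succ)) (by
    simpa [Fin.sum_univ_succ, hv] using k1)
  exact Fin.cases (this 0) fun j => this j.succ.succ

section ends

variable {y : U → Fin (p + 2) → ℝ} (hy : ∀ u v, y (u * v) = y u + y v)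
  {l : (Fin (p + 2) → ℝ) →ₗ[ℝ] ℝ} (l1 : l 1 = 0) (i₀ : Fin (p + 2)) {ρ : U → Fin (p + 2) → ℂ}
  {c : ℝ} (h2 : ∀ u i i', ρ u i ≠ 0 → y u i' ≤ y u i + c) (z : Ch U)

include hy l1 h2

theorem evp : ∀ᶠ x in atTop, ∀ u, l (Pi.single i₀ 1) * l (y u) = x →
    K (fun u i => ρ u (i₀.succAbove i)) (tr u z) = 0 := by
  refine eventually_comap.1 ?_
  simp only [K_tr]
  refine (ev_co (Ψ := fun _ _ => 0) (fun b => ?_) z).mono fun m k => k.trans (co_zero z)
  obtain ⟨C, h0, h⟩ := key (s := i₀.succAbove) (σ := fun u i => ρ u (i₀.succAbove i)) hy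
    (fun u i i' => h2 u _ i') b
  obtain ⟨D, hD⟩ := est l1 i₀ h0
  generalize l (Pi.single i₀ 1) = α at hD ⊢
  refine (tendsto_comap.eventually (eventually_gt_atTop (D + α ^ 2 * C))).mono fun u k => ?_
  by_contra k'
  have k1 := (abs_le.1 (hD (y u) fun i i' => h u k' i _)).2
  have k2 := mul_le_mul_of_nonneg_left (sub_le_iff_le_add'.2 (h u k' 0 i₀)) (sq_nonneg α)
  linarith

theorem evn {τ : U → Fin (p + 1) → ℂ} {c' : ℝ}
    (t2 : ∀ u i i', τ u i ≠ 0 → y u (i₀.succAbove i') ≤ y u (i₀.succAbove i) + c')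
    (t3 : ∀ u, ρ u i₀ = 0 → (fun i => ρ u (i₀.succAbove i)) = τ u) :
    ∀ᶠ x in atBot, ∀ u, l (Pi.single i₀ 1) * l (y u) = x →
      K (fun u i => ρ u (i₀.succAbove i)) (tr u z) = K τ (tr u z) := by
  refine eventually_comap.1 ?_
  simp only [K_tr]
  refine ev_co (fun b => ?_) z
  obtain ⟨C, h0, h⟩ := key (s := i₀.succAbove) (σ := fun u i => ρ u (i₀.succAbove i)) hy
    (fun u i i' => h2 u _ i') b
  obtain ⟨C', h0', h'⟩ := key (s := id) (y := fun u i => y u (i₀.succAbove i))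
    (fun u v => by rw [hy]; rfl) t2 b
  obtain ⟨C₀, -, h''⟩ := key0 (s := id) hy h2 b
  obtain ⟨D, hD⟩ := est l1 i₀ (add_nonneg h0 h0')
  generalize l (Pi.single i₀ 1) = α at hD ⊢
  refine (tendsto_comap.eventually (eventually_lt_atBot (-D - α ^ 2 * C₀))).mono fun u k => ?_
  by_contra k'
  have k1 := (abs_le.1 (hD (y u) fun i i' => by
    by_cases e : (Matrix.of fun j i => ρ (u * b j) (i₀.succAbove i)).det = 0
    · linarith [show _ ≤ y u (i₀.succAbove i) + C' from
        h' u (fun e' => k' (e.trans e'.symm)) i i']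
    · linarith [h u e i (i₀.succAbove i')])).1
  refine k' (congrArg _ (congrArg _ (funext fun j => t3 _ (by_contra fun e => ?_))))
  have k3 : -C₀ ≤ y u i₀ - y u (i₀.succAbove 0) := by
    linarith [show _ ≤ y u i₀ + C₀ from h'' u j i₀ (i₀.succAbove 0) e]
  linarith [mul_le_mul_of_nonneg_left k3 (sq_nonneg α)]

end ends

theorem ex_tau (y : U → Fin (p + 2) → ℝ) (i₀ : Fin (p + 2)) {ρ : U → Fin (p + 2) → ℂ} {c : ℝ}
    (h1 : ∀ u, ∑ i, ρ u i = 1) (h2 : ∀ u i i', ρ u i ≠ 0 → y u i' ≤ y u i + c) :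
    ∃ τ : U → Fin (p + 1) → ℂ, (∀ u, ∑ i, τ u i = 1) ∧
      (∀ u i i', τ u i ≠ 0 → y u (i₀.succAbove i') ≤ y u (i₀.succAbove i) + |c|) ∧
      ∀ u, ρ u i₀ = 0 → (fun i => ρ u (i₀.succAbove i)) = τ u := by
  choose am ham using fun u => Finite.exists_max fun i => y u (i₀.succAbove i)
  refine ⟨fun u => (fun i => ρ u (i₀.succAbove i)) + Pi.single (am u) (ρ u i₀), fun u => ?_,
    fun u i i' k => ?_, fun u k => by simp [k]⟩
  · rw [← h1 u, Fin.sum_univ_succAbove _ i₀]
    simp [sum_add_distrib, add_comm]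
  · by_cases e : i = am u
    · subst e
      linarith [ham u i', abs_nonneg c]
    · linarith [h2 u _ (i₀.succAbove i') (by simpa [e] using k), le_abs_self c]

/-- one more direction telescopes -/
theorem step {σ : U → Fin n → ℂ} {ε : Fin p → U} (F : ∀ z, Summable fun m => K σ (tr (E ε m) z))
    (e u : U) : HasSum (fun m => K σ (bd (tr (u * E ε m) (P e (cyc (List.ofFn ε))))))
      (∑' m, K σ (tr (E ε m) (tr (u * e) (cyc (List.ofFn ε)))) -
        ∑' m, K σ (tr (E ε m) (tr u (cyc (List.ofFn ε))))) := by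
  let S : Ch U →+ ℂ := AddMonoidHom.mk' (fun x => ∑' m, K σ (tr (E ε m) x))
    fun x x' => by simp only [map_add]; exact (F x).tsum_add (F x')
  have S1 : ∀ (j : Fin p) x, S (tr (ε j) x) = S x := fun j x => by
    refine Eq.trans ?_ ((Equiv.addRight (Pi.single j 1)).tsum_eq _)
    refine tsum_congr fun m => ?_
    rw [tr_tr, Equiv.coe_addRight, E_add, E_single]
  have S2 : S (bd (tr u (P e (cyc (List.ofFn ε))))) =
      S (tr (u * e) (cyc (List.ofFn ε))) - S (tr u (cyc (List.ofFn ε))) := by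
    have := kill (L := List.ofFn ε) (S.comp ((tr u).comp (P e))) (by simp) fun e m x => by
      obtain ⟨j, rfl⟩ := List.mem_ofFn.1 m
      simp only [AddMonoidHom.comp_apply, ← tr_P]
      rw [tr_tr, mul_comm, ← tr_tr, S1]
    rw [bd_mp, bd_P, map_sub, map_sub, map_sub, map_sub, tr_tr]
    exact sub_eq_self.2 this
  have : HasSum _ (S _) := (F (bd (tr u (P e (cyc (List.ofFn ε)))))).hasSum
  rw [S2] at this
  refine (congrArg (HasSum · _) (funext fun m => ?_)).mp this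
  rw [← bd_mp, tr_tr, mul_comm]

theorem E_cons (ε : Fin (p + 1) → U) (M : ℤ) (m : Fin p → ℤ) :
    E ε (Fin.consEquiv (fun _ => ℤ) (M, m)) = ε 0 ^ M * E (fun j => ε j.succ) m := by
  simp [E, Fin.prod_univ_succ]

theorem deg' (p : ℕ) (y : U → Fin (p + 1) → ℝ) (ε : Fin p → U)
    (hy : ∀ u v, y (u * v) = y u + y v)
    (li : LinearIndependent ℝ (Fin.cons 1 fun j => y (ε j) : Fin (p + 1) → Fin (p + 1) → ℝ)) :
    ∃ η : ℂ, (η = 1 ∨ η = -1) ∧ ∀ (ρ : U → Fin (p + 1) → ℂ) (c : ℝ) (a : U), (∀ u, ∑ i, ρ u i = 1) →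
      (∀ u i i', ρ u i ≠ 0 → y u i' ≤ y u i + c) →
      HasSum (fun m => K ρ (tr (E ε m) (tr a (cyc (List.ofFn ε))))) η := by
  induction p with
  | zero =>
    refine ⟨1, Or.inl rfl, fun ρ c a h _ => ?_⟩
    have k : ∀ m, K ρ (tr (E ε m) (tr a (cyc (List.ofFn ε)))) = 1 := fun m => by
      rw [tr_tr, K_tr, List.ofFn_zero, cyc, show [(1 : U)] = List.ofFn fun _ : Fin 1 => 1 from rfl,
        co_ofFn, Matrix.det_fin_one, Matrix.of_apply, ← h (E ε m * a * 1), Fin.sum_univ_one]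
    simp only [k]
    exact hasSum_unique fun _ => (1 : ℂ)
  | succ p ih =>
    obtain ⟨l, l1, l2⟩ := ex_dual li 0
    have l3 : ∀ j : Fin p, l (y (ε j.succ)) = 0 := fun j => by rw [l2, if_neg j.succ_ne_zero]
    have l4 : l (y (ε 0)) = 1 := by rw [l2, if_pos rfl]
    obtain ⟨i₀, h3⟩ : ∃ i₀, l (Pi.single i₀ 1) ≠ 0 := by
      by_contra k
      push Not at k
      rw [LinearMap.pi_apply_eq_sum_univ] at l4
      refine zero_ne_one ((sum_eq_zero fun i _ => ?_).symm.trans l4)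
      rw [show (fun j => if i = j then 1 else 0) = Pi.single i (1 : ℝ) from
        funext fun j => by simp [Pi.single_apply, eq_comm], k, smul_zero]
    have li' := li_cut li l1 l3 h3
    have hy' : ∀ u v, (fun i => y (u * v) (i₀.succAbove i)) =
        (fun i => y u (i₀.succAbove i)) + fun i => y v (i₀.succAbove i) := fun u v => by
      rw [hy]; rfl
    obtain ⟨η, hη, H⟩ := ih (fun u i => y u (i₀.succAbove i)) (fun j => ε j.succ) hy' li'
    refine ⟨(-1) ^ (i₀ : ℕ) * if 0 < l (Pi.single i₀ 1) then 0 - η else η - 0, ?_,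
      fun ρ c a h1 h2 => ?_⟩
    · rcases neg_one_pow_eq_or ℂ i₀ with k | k <;> rcases hη with rfl | rfl <;> split_ifs <;>
        simp [k]
    obtain ⟨τ, t1, t2, t3⟩ := ex_tau y i₀ h1 h2
    have F := fin (σ := fun u i => ρ u (i₀.succAbove i)) hy' li' fun u i i' => h2 u _ _
    have lE : ∀ (M : ℤ) m, l (y (E (fun j => ε j.succ) m * (a * ε 0 ^ M))) = l (y a) + M :=
      fun M m => by
        have := lin_E hy (fun _ : Fin 1 => ε 0) fun _ => M
        rw [E, Fintype.prod_unique, Fintype.sum_unique] at this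
        rw [hy, hy, lin_E hy, this]
        simp [l3, l4]
    obtain ⟨g, hg⟩ : ∃ g : ℤ → ℂ, ∀ M, g M = ∑' m, K (fun u i => ρ u (i₀.succAbove i))
      (tr (E (fun j => ε j.succ) m) (tr (a * ε 0 ^ M) (cyc (List.ofFn fun j => ε j.succ)))) :=
      ⟨_, fun _ => rfl⟩
    have Hp : ∀ G : Filter ℤ, Tendsto (fun M : ℤ => l (Pi.single i₀ 1) * (l (y a) + M)) G atTop →
        ∀ᶠ M in G, g M = 0 := fun G hG => by
      filter_upwards [hG.eventually (evp hy l1 i₀ h2 (cyc (List.ofFn fun j => ε j.succ)))] with M k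
      refine (hg M).trans ((tsum_congr fun m => ?_).trans tsum_zero)
      rw [tr_tr]
      exact k _ (by rw [lE])
    have Hn : ∀ G : Filter ℤ, Tendsto (fun M : ℤ => l (Pi.single i₀ 1) * (l (y a) + M)) G atBot →
        ∀ᶠ M in G, g M = η := fun G hG => by
      filter_upwards [hG.eventually (evn hy l1 i₀ h2 (cyc (List.ofFn fun j => ε j.succ)) t2 t3)]
        with M k
      refine (hg M).trans ((tsum_congr fun m => ?_).trans (H τ |c| (a * ε 0 ^ M) t1 t2).tsum_eq)
      rw [tr_tr]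
      exact k _ (by rw [lE])
    have c1 : Tendsto (fun M : ℤ => l (y a) + M) atTop atTop :=
      tendsto_atTop_add_const_left _ _ tendsto_intCast_atTop_atTop
    have c2 : Tendsto (fun M : ℤ => l (y a) + M) atBot atBot :=
      tendsto_atBot_add_const_left _ _ (tendsto_intCast_atBot_iff.2 tendsto_id)
    have T : HasSum (fun M : ℤ => g (M + 1) - g M)
        (if 0 < l (Pi.single i₀ 1) then 0 - η else η - 0) := by
      split_ifs with e
      · exact tel g (Hp _ (c1.const_mul_atTop e)) (Hn _ (c2.const_mul_atBot e))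
      · have e' := lt_of_le_of_ne (not_lt.1 e) h3
        exact tel g (Hn _ (c1.const_mul_atTop_of_neg e')) (Hp _ (c2.const_mul_atBot_of_neg e'))
    have G := (fin hy li h2 (tr a (cyc (List.ofFn ε)))).hasSum
    rw [← (T.mul_left _).unique (((Fin.consEquiv fun _ => ℤ).hasSum_iff.2 G).prod_fiberwise
      fun M => ?_)] at G
    · exact G
    · rw [hg, hg, zpow_add_one, ← mul_assoc]
      refine (congrArg (HasSum · _) (funext fun m => ?_)).mp
        ((step F (ε 0) (a * ε 0 ^ M)).mul_left ((-1) ^ (i₀ : ℕ)))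
      rw [Function.comp_apply, K_bd ρ h1 i₀, List.ofFn_succ, cyc, tr_tr, E_cons, mul_comm _ a,
        mul_assoc]

end Dg

/-- **the degree** -/
theorem deg : DEG := fun p U _ y ε hy li => by
  obtain ⟨η, h, H⟩ := Dg.deg' p y ε hy li
  refine ⟨η, h, fun ρ c h1 h2 => ?_⟩
  have := H ρ c 1 h1 h2
  rwa [tr_one] at this

end Vale.Agent.P004C.An
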