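import Vale.Agent.P004C.An.Tx

/-!
# P004 C, block AN: homogeneous functions on lattices are regularisable
-/

set_option autoImplicit false

open Finset Filter Topology
open scoped ContDiff

noncomputable section

namespace Vale.Agent.P004C.An

namespace Sq

variable {E : Type*} [NormedAddCommGroup E] [NormedSpace ℝ E] {b : ℂ → ℂ} {G : ℂ × E → ℂ}

/-- the derivative along `v` -/
def dd (v : E) (G : ℂ × E → ℂ) (p : ℂ × E) : ℂ := fderiv ℝ G p (0, v)

omit [NormedSpace ℝ E] in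
theorem op : IsOpen {p : ℂ × E | p.2 ≠ 0} := isOpen_ne_fun continuous_snd continuous_const

theorem der (h : Hm b G) (v : E) (s : ℂ) (x : E) (τ : ℝ) (hx : x + τ • v ≠ 0) :
    HasDerivAt (fun τ : ℝ => G (s, x + τ • v)) (dd v G (s, x + τ • v)) τ := by
  have a : HasFDerivAt G (fderiv ℝ G (s, x + τ • v)) (s, x + τ • v) :=
    ((h.1.contDiffAt (op.mem_nhds hx)).differentiableAt (by simp)).hasFDerivAt
  have c : HasDerivAt (fun τ : ℝ => ((s, x + τ • v) : ℂ × E)) (0, v) τ :=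
    (hasDerivAt_const τ s).prodMk (by simpa using ((hasDerivAt_id τ).smul_const v).const_add x)
  exact a.comp_hasDerivAt τ c

theorem hm_dd (h : Hm b G) (v : E) : Hm (fun s => b s + 1) (dd v G) := by
  refine ⟨(h.1.fderiv_of_isOpen op (by simp)).clm_apply contDiffOn_const, fun s x t ht hx => ?_⟩
  have a := der h v s (t • x) 0 (by simpa using ⟨ht.ne', hx⟩)
  have c := der h (t⁻¹ • v) s x 0 (by simpa using hx)
  have e : (fun τ : ℝ => G (s, t • x + τ • v)) =ᶠ[𝓝 0] fun τ : ℝ =>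
      Complex.exp (-b s * Real.log t) * G (s, x + τ • t⁻¹ • v) := by
    have k : ∀ᶠ τ : ℝ in 𝓝 0, x + τ • t⁻¹ • v ≠ 0 :=
      ContinuousAt.eventually_ne (by fun_prop) (by simpa using hx)
    filter_upwards [k] with τ k
    rw [← h.2 s _ t ht k, smul_add, smul_comm t τ, smul_inv_smul₀ ht.ne']
  have f := a.unique ((c.const_mul _).congr_of_eventuallyEq e)
  simp only [zero_smul, add_zero] at f
  have g : dd (t⁻¹ • v) G (s, x) = (t : ℂ)⁻¹ * dd v G (s, x) := by
    have : ((0 : ℂ), t⁻¹ • v) = t⁻¹ • ((0 : ℂ), v) := by simp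
    rw [dd, dd, this, map_smul]
    simp
  rw [f, g, ← mul_assoc]
  congr 1
  rw [neg_add, add_mul, Complex.exp_add, neg_one_mul, Complex.exp_neg, ← Complex.ofReal_exp,
    Real.exp_log ht]

theorem hm_it (h : Hm b G) (v : E) (j : ℕ) : Hm (fun s => b s + j) ((dd v)^[j] G) := by
  induction j with
  | zero => simpa using h
  | succ j ih =>
    rw [Function.iterate_succ_apply']
    simpa only [Nat.cast_succ, add_assoc] using hm_dd ih v

theorem bnd [FiniteDimensional ℝ E] (h : Hm b G) {K : Set ℂ} (hK : IsCompact K) {a : ℝ}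
    (ha : ∀ s ∈ K, a ≤ (b s).re) :
    ∃ C : ℝ, ∀ s ∈ K, ∀ x : E, 1 ≤ ‖x‖ → ‖G (s, x)‖ ≤ C * ‖x‖ ^ (-a) := by
  have := FiniteDimensional.proper_real E
  obtain ⟨C, hC⟩ := (hK.prod (isCompact_sphere (0 : E) 1)).exists_bound_of_continuousOn
    (h.1.continuousOn.mono fun p k e => by simpa [show p.2 = 0 from e] using k.2)
  refine ⟨C, fun s hs x hx => ?_⟩
  have p : 0 < ‖x‖ := one_pos.trans_le hx
  have n : ‖‖x‖⁻¹ • x‖ = 1 := by rw [norm_smul, norm_inv, norm_norm, inv_mul_cancel₀ p.ne']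
  have k := h.2 s (‖x‖⁻¹ • x) ‖x‖ p (fun e => by simp [e] at n)
  rw [smul_inv_smul₀ p.ne'] at k
  rw [k, norm_mul, mul_comm, Complex.norm_exp, Real.rpow_def_of_pos p]
  refine mul_le_mul (hC _ ⟨hs, by simpa using n⟩) (Real.exp_le_exp.2 ?_) (Real.exp_pos _).le
    ((norm_nonneg _).trans (hC (s, ‖x‖⁻¹ • x) ⟨hs, by simpa using n⟩))
  have := mul_le_mul_of_nonneg_left (ha s hs) (Real.log_nonneg hx)
  simp only [Complex.mul_re, Complex.neg_re, Complex.ofReal_re, Complex.ofReal_im, mul_zero]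
  linarith

/-- all derivatives along `v` decay -/
def Sy (v : E) (K : Set ℂ) (m : ℕ) (F : ℂ × E → ℂ) : Prop := ∃ Fs : ℕ → ℂ × E → ℂ, Fs 0 = F ∧
  ∀ j, ∃ C R : ℝ, ∀ s ∈ K, (∀ x, R ≤ ‖x‖ → ‖Fs j (s, x)‖ ≤ C * ‖x‖⁻¹ ^ (m + j)) ∧
    ∀ x (τ : ℝ), R ≤ ‖x + τ • v‖ →
      HasDerivAt (fun τ : ℝ => Fs j (s, x + τ • v)) (Fs (j + 1) (s, x + τ • v)) τ

theorem sy0 [FiniteDimensional ℝ E] (h : Hm b G) (v : E) {K U : Set ℂ} (hK : IsCompact K)
    (hU : U ⊆ K) (ha : ∀ s ∈ K, 0 ≤ (b s).re) : Sy v U 0 G := by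
  refine ⟨fun j => (dd v)^[j] G, rfl, fun j => ?_⟩
  obtain ⟨C, hC⟩ := bnd (hm_it h v j) hK (a := j) fun s hs => by simpa using ha s hs
  refine ⟨C, 1, fun s hs => ⟨fun x hx => ?_, fun x τ hx => ?_⟩⟩
  · have := hC s (hU hs) x hx
    rw [Real.rpow_neg (norm_nonneg _), Real.rpow_natCast, ← inv_pow] at this
    rwa [zero_add]
  · simp only [Function.iterate_succ_apply']
    exact der (hm_it h v j) v s x τ fun e => by norm_num [e] at hx

theorem Sy.dif {v : E} {K : Set ℂ} {m : ℕ} {F : ℂ × E → ℂ} (h : Sy v K m F) {t : ℝ} (ht : 0 ≤ t) :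
    Sy v K (m + 1) fun p => F (p.1, p.2 + t • v) - F p := by
  obtain ⟨Fs, rfl, h⟩ := h
  refine ⟨fun j p => Fs j (p.1, p.2 + t • v) - Fs j p, rfl, fun j => ?_⟩
  obtain ⟨C, R, h1⟩ := h j
  obtain ⟨C', R', h2⟩ := h (j + 1)
  have tv : 0 ≤ t * ‖v‖ := by positivity
  have key : ∀ (x : E) (τ : ℝ), 2 * (|R| + |R'| + t * ‖v‖ + 1) ≤ ‖x‖ → τ ∈ Set.Icc 0 t →
      ‖x‖ / 2 ≤ ‖x + τ • v‖ := fun x τ hx hτ => by
    have a := norm_sub_le (x + τ • v) (τ • v)
    rw [add_sub_cancel_right, norm_smul, Real.norm_of_nonneg hτ.1] at a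
    have := mul_le_mul_of_nonneg_right hτ.2 (norm_nonneg v)
    linarith [abs_nonneg R, abs_nonneg R']
  refine ⟨|C'| * 2 ^ (m + (j + 1)) * t, 2 * (|R| + |R'| + t * ‖v‖ + 1),
    fun s hs => ⟨fun x hx => ?_, fun x τ hx => ?_⟩⟩
  · have p : 0 < ‖x‖ := lt_of_lt_of_le (by positivity) hx
    have a := norm_image_sub_le_of_norm_deriv_le_segment' (a := 0) (b := t)
      (f := fun τ : ℝ => Fs j (s, x + τ • v)) (f' := fun τ => Fs (j + 1) (s, x + τ • v))
      (C := |C'| * (‖x‖ / 2)⁻¹ ^ (m + (j + 1))) (fun τ hτ => ((h1 s hs).2 x τ (by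
        linarith [key x τ hx hτ, le_abs_self R, abs_nonneg R'])).hasDerivWithinAt) (fun τ hτ => by
        have k := key x τ hx ⟨hτ.1, hτ.2.le⟩
        refine ((h2 s hs).1 _ (by linarith [le_abs_self R', abs_nonneg R])).trans ?_
        gcongr
        exact le_abs_self _) t ⟨ht, le_rfl⟩
    simp only [zero_smul, add_zero, sub_zero] at a
    refine a.trans_eq ?_
    rw [inv_div, div_eq_mul_inv, mul_pow, show m + 1 + j = m + (j + 1) by omega]
    ring
  · have a := (h1 s hs).2 (x + t • v) τ (by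
      rw [add_right_comm]
      linarith [key _ t hx ⟨ht, le_rfl⟩, le_abs_self R, abs_nonneg R'])
    have c := (h1 s hs).2 x τ (by linarith [le_abs_self R, abs_nonneg R', abs_nonneg R])
    simpa only [add_right_comm x (t • v)] using a.fun_sub c

variable {X : Type*} [AddCommGroup X] (em : X →+ E) {B : ℝ}

omit [NormedSpace ℝ E] in
theorem dis (hf : ∀ R : ℝ, {x | ‖em x‖ ≤ R}.Finite) {L : Submodule ℤ E}
    (h1 : ∀ z ∈ L, z ∈ Set.range em) : DiscreteTopology L := by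
  refine discreteTopology_iff_isOpen_singleton_zero.2 (isOpen_singleton_of_finite_mem_nhds _
    (s := {z : L | ‖(z : E)‖ ≤ 1}) ?_ ?_)
  · have c : ContinuousAt (fun z : L => ‖(z : E)‖) 0 := continuous_subtype_val.norm.continuousAt
    exact (c.eventually_lt (g := fun _ => 1) continuousAt_const (by simp)).mono fun _ => le_of_lt
  · refine (((hf 1).image em).preimage Subtype.val_injective.injOn).subset fun z hz => ?_
    obtain ⟨x, e⟩ := h1 z z.2
    exact ⟨x, show ‖em x‖ ≤ 1 from e ▸ hz, e⟩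

theorem lat [FiniteDimensional ℝ E] (hi : Function.Injective em)
    (hf : ∀ R : ℝ, {x | ‖em x‖ ≤ R}.Finite) {r : ℝ} (hr : r < -Module.finrank ℝ E) :
    Summable fun x => ‖em x‖ ^ r := by
  obtain ⟨L, hL⟩ : ∃ L : Submodule ℤ E, L = Submodule.span ℤ (Set.range em) := ⟨_, rfl⟩
  have h2 : ∀ x, em x ∈ L := fun x => hL ▸ Submodule.subset_span ⟨x, rfl⟩
  have : DiscreteTopology L := dis em hf fun z hz => by
    have : L ≤ LinearMap.range em.toIntLinearMap := hL ▸ Submodule.span_le.2 fun _ k => k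
    exact this hz
  have e : Module.finrank ℤ L ≤ Module.finrank ℝ E := by
    subst hL
    exact (Real.finrank_eq_int_finrank_of_discrete this).symm.trans_le (Submodule.finrank_le _)
  have e' : (Module.finrank ℤ L : ℝ) ≤ Module.finrank ℝ E := Nat.cast_le.2 e
  have k := ZLattice.summable_norm_rpow L r (by linarith)
  have i : Function.Injective fun x => (⟨em x, h2 x⟩ : L) := fun x y k => hi (congrArg Subtype.val k)
  exact (k.comp_injective i).congr fun _ => rfl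

theorem ind (hf : ∀ R : ℝ, {x | ‖em x‖ ≤ R}.Finite) {N : ℕ} (hs : Summable fun x => ‖em x‖⁻¹ ^ N)
    (d : X) (q : ℕ) {U : Set ℂ} (hU : IsOpen U) (r : ℕ) : ∀ m, m + r = N →
    ∀ (ψ : X → ℂ) (F : ℂ × E → ℂ), MZ ψ d q → (∀ x, ‖ψ x‖ ≤ B) → Sy (em d) U m F →
    (∀ x, DifferentiableOn ℂ (fun s => F (s, x)) U) →
    ∃ D : ℂ → ℂ, DifferentiableOn ℂ D U ∧ ∀ s ∈ U, Reg (fun x => ψ x * F (s, em x)) (D s) := by
  induction r with
  | zero =>
    rintro m rfl ψ F - hB ⟨Fs, rfl, h⟩ hd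
    obtain ⟨C, R, h⟩ := h 0
    have k : ∀ᶠ x in cofinite, ∀ s ∈ U, ‖ψ x * Fs 0 (s, em x)‖ ≤ B * C * ‖em x‖⁻¹ ^ (m + 0) :=
      (hf R).subset fun x hx => not_lt.1 fun e => hx fun s hs => by
        rw [norm_mul, mul_assoc]
        exact mul_le_mul (hB x) ((h s hs).1 _ e.le) (norm_nonneg _) ((norm_nonneg _).trans (hB x))
    refine ⟨fun s => ∑' x, ψ x * Fs 0 (s, em x), ?_, fun s hs' => .of_hasSum
      (Summable.of_norm_bounded_eventually (hs.mul_left (B * C)) (k.mono fun x a => a s hs')).hasSum⟩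
    exact (tendstoUniformlyOn_tsum_of_cofinite_eventually (hs.mul_left (B * C))
      k).tendstoLocallyUniformlyOn.differentiableOn (.of_forall fun t =>
        DifferentiableOn.fun_sum fun x _ => (hd _).const_mul _) hU
  | succ r ih =>
    intro m hm ψ F hz hB h hd
    have q0 : (q : ℂ) ≠ 0 := Nat.cast_ne_zero.2 hz.1.ne'
    choose D h1 h2 using fun t : Fin q => ih (m + 1) (by omega) (fun x => ψ (x + (t : ℕ) • d)) _
      ⟨hz.1, fun x => by simpa only [add_right_comm x _ ((t : ℕ) • d)] using hz.2 (x + (t : ℕ) • d)⟩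
      (fun x => hB _) (h.dif (Nat.cast_nonneg (t : ℕ))) fun x => (hd (x + _)).fun_sub (hd x)
    refine ⟨fun s => (q : ℂ)⁻¹ * ∑ t, D t s,
      (DifferentiableOn.fun_sum fun t _ => h1 t).const_mul _, fun s hs' => ?_⟩
    refine Reg.of_cv (κ := Fin q) (c := fun _ => 1) (fun t => (t : ℕ) • d) (by simpa using hz.1.ne')
      ((Reg.sum univ fun t _ => h2 t s hs').congr (fun x => ?_) (by simp [q0]))
    have := hz.2 x
    rw [← Fin.sum_univ_eq_sum_range (fun t => ψ (x + t • d))] at this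
    simp only [one_mul, mul_sub, sum_sub_distrib, ← sum_mul, this, zero_mul, sub_zero, map_add,
      map_nsmul, Nat.cast_smul_eq_nsmul]

end Sq

open Sq in
/-- **SYM** -/
theorem sym : SYM := by
  intro E _ _ _ X _ em hi hf b G ψ B h hB
  refine ⟨fun s hs => ?_, fun d q W hz hW hb hd => ?_⟩
  · obtain ⟨C, hC⟩ := bnd h isCompact_singleton (K := {s}) (a := (b s).re) (by simp)
    refine Summable.of_norm_bounded_eventually
      ((lat em hi hf (neg_lt_neg hs)).mul_left (B * C)) ((hf 1).subset fun x hx => ?_)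
    refine (not_lt (a := (1 : ℝ))).1 fun e => hx ?_
    show ‖ψ x * G (s, em x)‖ ≤ B * C * ‖em x‖ ^ (-(b s).re)
    rw [norm_mul, mul_assoc]
    exact mul_le_mul (hB x) (hC s rfl _ e.le) (norm_nonneg _) ((norm_nonneg _).trans (hB x))
  have hs : Summable fun x => ‖em x‖⁻¹ ^ (Module.finrank ℝ E + 1) := by
    refine (lat em hi hf (r := -((Module.finrank ℝ E + 1 : ℕ) : ℝ)) (by simp)).congr fun x => ?_
    rw [Real.rpow_neg (norm_nonneg _), Real.rpow_natCast, inv_pow]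
  have key : ∀ s ∈ W, ∃ U ∈ 𝓝 s, ∃ D : ℂ → ℂ, DifferentiableOn ℂ D U ∧
      ∀ s ∈ U, Reg (fun x => ψ x * G (s, em x)) (D s) := fun s hs' => by
    obtain ⟨K, k1, k2, k3⟩ := local_compact_nhds (hW.mem_nhds hs')
    exact ⟨interior K, interior_mem_nhds.2 k1, ind em hf hs d q isOpen_interior _ 0 (zero_add _) ψ G
      hz hB (sy0 h _ k3 interior_subset fun s a => hb s (k2 a))
      fun x => (hd x).mono (interior_subset.trans k2)⟩
  refine ⟨fun s => rg fun x => ψ x * G (s, em x), fun s hs' => ?_, fun s hs' => ?_⟩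
  · obtain ⟨U, hU, D, h1, h2⟩ := key s hs'
    exact ((h1.differentiableAt hU).congr_of_eventuallyEq
      (mem_of_superset hU fun s a => (h2 s a).rg_eq)).differentiableWithinAt
  · obtain ⟨U, hU, D, -, h2⟩ := key s hs'
    exact (h2 s (mem_of_mem_nhds hU)).congr (fun _ => rfl) (h2 s (mem_of_mem_nhds hU)).rg_eq

end Vale.Agent.P004C.An
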