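import Vale.Agent.P004C.An.Ipl0
import Vale.Agent.P004C.An.Sym
import Vale.Agent.P004C.An.Deg

/-!
# P004 C, block AN: interpolation
-/

namespace Vale.Agent.P004C.An

theorem ipl : IPL := ipl0 sym deg

end Vale.Agent.P004C.An
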