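import Mathlib

/-!
# P004 C, block AN: chains as lists of vertices
-/

set_option autoImplicit false

open FreeAbelianGroup

noncomputable section

namespace Vale.Agent.P004C.An

variable {V W U G A : Type*}

/-- chains -/
abbrev Ch (V : Type*) : Type _ := FreeAbelianGroup (List V)

/-- the cone -/
def cn (a : V) : Ch V →+ Ch V := map (a :: ·)

/-- the push-forward -/
def mp (f : V → W) : Ch V →+ Ch W := map (List.map f)

/-- the boundary of a list -/
def bd0 : List V → Ch V
  | [] => 0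
  | a :: L => of L - cn a (bd0 L)

/-- the boundary (`bd [a] = []`) -/
def bd : Ch V →+ Ch V := lift bd0

/-- the prism of a list -/
def pr0 (f g : V → W) : List V → Ch W
  | [] => 0
  | a :: L => of (f a :: g a :: L.map g) - cn (f a) (pr0 f g L)

/-- the prism from `f` to `g` -/
def pr (f g : V → W) : Ch V →+ Ch W := lift (pr0 f g)

@[simp] theorem cn_of (a : V) (L : List V) : cn a (of L) = of (a :: L) := rfl

@[simp] theorem mp_of (f : V → W) (L : List V) : mp f (of L) = of (L.map f) := rfl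

@[simp] theorem bd_nil : bd (of ([] : List V)) = 0 := lift_apply_of _ _

@[simp] theorem pr_nil (f g : V → W) : pr f g (of []) = 0 := lift_apply_of _ _

theorem hom_ext [AddCommGroup A] {φ ψ : Ch V →+ A} (h : ∀ L, φ (of L) = ψ (of L)) (c : Ch V) :
    φ c = ψ c := DFunLike.congr_fun (lift_ext φ ψ h) c

theorem bd_cn (a : V) (c : Ch V) : bd (cn a c) = c - cn a (bd c) :=
  hom_ext (φ := bd.comp (cn a)) (ψ := .id _ - (cn a).comp bd) (fun L => by simp [bd, bd0]) c

theorem mp_cn (f : V → W) (a : V) (c : Ch V) : mp f (cn a c) = cn (f a) (mp f c) :=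
  hom_ext (φ := (mp f).comp (cn a)) (ψ := (cn (f a)).comp (mp f)) (fun _ => rfl) c

theorem pr_cn (f g : V → W) (a : V) (c : Ch V) :
    pr f g (cn a c) = cn (f a) (cn (g a) (mp g c) - pr f g c) :=
  hom_ext (φ := (pr f g).comp (cn a)) (ψ := (cn (f a)).comp ((cn (g a)).comp (mp g) - pr f g))
    (fun L => by simp [pr, pr0]) c

theorem mp_mp (f : V → W) (g : W → U) (c : Ch V) : mp g (mp f c) = mp (g ∘ f) c :=
  hom_ext (φ := (mp g).comp (mp f)) (fun L => by simp) c

theorem mp_id (c : Ch V) : mp id c = c := hom_ext (ψ := .id _) (fun L => by simp) c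

/-- induction over cones -/
theorem cn_ext [AddCommGroup A] {φ ψ : Ch V →+ A} (h0 : φ (of []) = ψ (of []))
    (h : ∀ a c, φ c = ψ c → φ (cn a c) = ψ (cn a c)) (c : Ch V) : φ c = ψ c :=
  hom_ext (fun L => by
    induction L with
    | nil => exact h0
    | cons a L ih => exact h a _ ih) c

theorem bd_bd (c : Ch V) : bd (bd c) = 0 :=
  cn_ext (φ := bd.comp bd) (ψ := 0) (by simp) (fun a c h => by
    simp only [AddMonoidHom.comp_apply, AddMonoidHom.zero_apply] at h ⊢
    simp [bd_cn, h]) c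

theorem bd_mp (f : V → W) (c : Ch V) : bd (mp f c) = mp f (bd c) :=
  cn_ext (φ := bd.comp (mp f)) (ψ := (mp f).comp bd) (by simp) (fun a c h => by
    simp only [AddMonoidHom.comp_apply] at h ⊢
    simp [bd_cn, mp_cn, h]) c

/-- **the prism is a homotopy** -/
theorem bd_pr (f g : V → W) (c : Ch V) : bd (pr f g c) = mp g c - mp f c - pr f g (bd c) :=
  cn_ext (φ := bd.comp (pr f g)) (ψ := mp g - mp f - (pr f g).comp bd) (by simp) (fun a c h => by
    simp only [AddMonoidHom.comp_apply, AddMonoidHom.sub_apply] at h ⊢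
    simp only [bd_cn, mp_cn, pr_cn, h, map_sub, bd_mp]
    abel) c

theorem mp_pr (f g : V → W) (k : W → U) (c : Ch V) : mp k (pr f g c) = pr (k ∘ f) (k ∘ g) c :=
  cn_ext (φ := (mp k).comp (pr f g)) (by simp) (fun a c h => by
    simp only [AddMonoidHom.comp_apply] at h ⊢
    simp [mp_cn, pr_cn, h, mp_mp]) c

theorem pr_mp (f g : W → U) (k : V → W) (c : Ch V) : pr f g (mp k c) = pr (f ∘ k) (g ∘ k) c :=
  cn_ext (φ := (pr f g).comp (mp k)) (by simp) (fun a c h => by
    simp only [AddMonoidHom.comp_apply] at h ⊢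
    simp [mp_cn, pr_cn, h, mp_mp]) c

/-! ### supports -/

/-- chains of lists with the property `Q` -/
def sp (Q : List V → Prop) : AddSubgroup (Ch V) := .closure (of '' {L | Q L})

theorem of_sp {Q : List V → Prop} {L : List V} (h : Q L) : of L ∈ sp Q :=
  AddSubgroup.subset_closure ⟨L, h, rfl⟩

theorem sp_map [AddCommGroup A] {Q : List V → Prop} (φ : Ch V →+ A) (S : AddSubgroup A)
    (h : ∀ L, Q L → φ (of L) ∈ S) {c : Ch V} (hc : c ∈ sp Q) : φ c ∈ S :=
  (AddSubgroup.closure_le (S.comap φ)).2 (by rintro _ ⟨L, k, rfl⟩; exact h L k) hc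

theorem sp_ext [AddCommGroup A] {Q : List V → Prop} {φ ψ : Ch V →+ A}
    (h : ∀ L, Q L → φ (of L) = ψ (of L)) {c : Ch V} (hc : c ∈ sp Q) : φ c = ψ c :=
  sub_eq_zero.1 (sp_map (φ - ψ) ⊥ (fun L k => sub_eq_zero.2 (h L k)) hc)

theorem sp_top (c : Ch V) : c ∈ sp fun _ => True :=
  c.induction_on (zero_mem _) (fun _ => of_sp trivial) (fun _ => neg_mem) fun _ _ => add_mem

/-- `p` vertices in `S` -/
def Vx (S : Set V) (p : ℕ) (L : List V) : Prop := L.length = p ∧ ∀ a ∈ L, a ∈ S

theorem cn_sp {S : Set V} {p : ℕ} {a : V} (ha : a ∈ S) {c : Ch V} (h : c ∈ sp (Vx S p)) :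
    cn a c ∈ sp (Vx S (p + 1)) :=
  sp_map _ _ (fun _ k => of_sp ⟨congrArg (· + 1) k.1, List.forall_mem_cons.2 ⟨ha, k.2⟩⟩) h

theorem mp_sp {S : Set V} {T : Set W} {p : ℕ} {f : V → W} (hf : ∀ a ∈ S, f a ∈ T) {c : Ch V}
    (h : c ∈ sp (Vx S p)) : mp f c ∈ sp (Vx T p) :=
  sp_map _ _ (fun _ k => of_sp ⟨(List.length_map _).trans k.1,
    List.forall_mem_map.2 fun a m => hf a (k.2 a m)⟩) h

theorem bd_sp {S : Set V} {p : ℕ} {c : Ch V} (h : c ∈ sp (Vx S (p + 1))) : bd c ∈ sp (Vx S p) := by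
  refine sp_map _ _ (fun L k => ?_) h
  induction p generalizing L c with
  | zero =>
    obtain ⟨a, rfl⟩ := List.length_eq_one_iff.1 k.1
    rw [← cn_of, bd_cn, bd_nil, map_zero, sub_zero]
    exact of_sp ⟨rfl, by simp⟩
  | succ p ih =>
    obtain _ | ⟨a, L⟩ := L
    · exact absurd k.1 (by simp)
    · have k' : Vx S (p + 1) L := ⟨Nat.succ_injective k.1, (List.forall_mem_cons.1 k.2).2⟩
      rw [← cn_of, bd_cn]
      exact sub_mem (of_sp k') (cn_sp (k.2 a (by simp)) (ih (of_sp k') L k'))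

theorem pr_sp {S : Set V} {T : Set W} {p : ℕ} {f g : V → W} (hf : ∀ a ∈ S, f a ∈ T)
    (hg : ∀ a ∈ S, g a ∈ T) {c : Ch V} (h : c ∈ sp (Vx S p)) : pr f g c ∈ sp (Vx T (p + 1)) := by
  refine sp_map _ _ (fun L k => ?_) h
  clear h
  induction L generalizing p with
  | nil => rw [pr_nil]; exact zero_mem _
  | cons a L ih =>
    obtain ⟨rfl, k⟩ := k
    obtain ⟨k1, k2⟩ := List.forall_mem_cons.1 k
    rw [← cn_of, pr_cn]
    exact cn_sp (hf a k1) (sub_mem (cn_sp (hg a k1) (mp_sp hg (of_sp ⟨rfl, k2⟩))) (ih ⟨rfl, k2⟩))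

/-! ### the cycle of a list of commuting elements -/

section grp

variable [CommGroup G]

/-- translation -/
abbrev tr (e : G) : Ch G →+ Ch G := mp (e * ·)

/-- the prism from `1` to `e` -/
abbrev P (e : G) : Ch G →+ Ch G := pr id (e * ·)

theorem tr_tr (e e' : G) (c : Ch G) : tr e (tr e' c) = tr (e * e') c := by
  rw [mp_mp]
  exact congrArg (mp · c) (funext fun a => (mul_assoc _ _ _).symm)

theorem tr_one (c : Ch G) : tr 1 c = c :=
  (congrArg (mp · c) (funext one_mul)).trans (mp_id c)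

theorem tr_P (e e' : G) (c : Ch G) : tr e (P e' c) = P e' (tr e c) := by
  rw [mp_pr, pr_mp, show (e * ·) ∘ (e' * ·) = (e' * ·) ∘ (e * ·) from
    funext fun a => mul_left_comm _ _ _]
  rfl

theorem bd_P (e : G) (c : Ch G) : bd (P e c) = tr e c - c - P e (bd c) := by rw [bd_pr, mp_id]

theorem P_P (e e' : G) (c : Ch G) : P e (P e' c) = -P e' (P e c) :=
  cn_ext (φ := (P e).comp (P e')) (ψ := -(P e').comp (P e)) (by simp) (fun a c h => by
    simp only [AddMonoidHom.comp_apply, AddMonoidHom.neg_apply] at h ⊢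
    simp only [pr_cn, mp_cn, map_sub, map_neg, h, id, tr_P, tr_tr, mul_left_comm e e', mul_comm e e']
    abel) c

/-- the cycle: simplices `1, e₁, e₁ e₂, ..` -/
def cyc : List G → Ch G
  | [] => of [1]
  | e :: L => P e (cyc L)

theorem cyc_sp (S : Submonoid G) {L : List G} (h : ∀ e ∈ L, e ∈ S) :
    cyc L ∈ sp (Vx (S : Set G) (L.length + 1)) := by
  induction L with
  | nil => exact of_sp ⟨rfl, by simp⟩
  | cons e L ih =>
    obtain ⟨k1, k2⟩ := List.forall_mem_cons.1 h
    exact pr_sp (fun _ => id) (fun _ => S.mul_mem k1) (ih k2)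

/-- **invariant cochains kill the boundary of the cycle** -/
theorem kill [AddCommGroup A] {L : List G} (ψ : Ch G →+ A) (h0 : ψ (of []) = 0)
    (h : ∀ e ∈ L, ∀ c, ψ (tr e c) = ψ c) : ψ (bd (cyc L)) = 0 := by
  induction L generalizing ψ with
  | nil => rwa [cyc, ← cn_of, bd_cn, bd_nil, map_zero, sub_zero]
  | cons e L ih =>
    obtain ⟨k1, k2⟩ := List.forall_mem_cons.1 h
    rw [cyc, bd_P, map_sub, map_sub, k1, sub_self, zero_sub, neg_eq_zero]
    exact ih (ψ.comp (P e)) (by simp) fun e' m c => by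
      simp only [AddMonoidHom.comp_apply, ← tr_P, k2 e' m]

end grp

/-! ### cochains given on tuples -/

/-- a function of `n` vertices as a cochain -/
def co [AddCommGroup A] {n : ℕ} (F : (Fin n → V) → A) : Ch V →+ A :=
  lift fun L => if h : L.length = n then F fun j => L.get (j.cast h.symm) else 0

section co

variable [AddCommGroup A] {n : ℕ} (F : (Fin n → V) → A)

theorem co_ofFn (a : Fin n → V) : co F (of (List.ofFn a)) = F a := by
  simp [co]

theorem co_ne {L : List V} (h : L.length ≠ n) : co F (of L) = 0 := by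
  simp [co, h]

theorem ex_ofFn {L : List V} (h : L.length = n) : ∃ a : Fin n → V, L = List.ofFn a :=
  h ▸ ⟨L.get, L.ofFn_get.symm⟩

theorem co_ext {B : Type*} [AddCommGroup B] {φ : Ch V →+ B} {F : (Fin n → V) → B}
    (h : ∀ a, φ (of (List.ofFn a)) = F a) (h0 : ∀ L, L.length ≠ n → φ (of L) = 0) (c : Ch V) :
    φ c = co F c :=
  hom_ext (fun L => by
    by_cases k : L.length = n
    · obtain ⟨a, rfl⟩ := ex_ofFn k
      rw [h, co_ofFn]
    · rw [h0 L k, co_ne F k]) c

theorem co_mp (f : W → V) (c : Ch W) : co F (mp f c) = co (fun a => F (f ∘ a)) c :=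
  co_ext (φ := (co F).comp (mp f)) (fun a => by
    rw [AddMonoidHom.comp_apply, mp_of, List.map_ofFn, co_ofFn])
    (fun L h => co_ne F (by simpa using h)) c

theorem map_co {B : Type*} [AddCommGroup B] (φ : A →+ B) (c : Ch V) :
    φ (co F c) = co (fun a => φ (F a)) c :=
  co_ext (φ := φ.comp (co F)) (fun a => congrArg φ (co_ofFn F a))
    (fun _ h => (congrArg φ (co_ne F h)).trans (map_zero φ)) c

theorem bd_ofFn (a : Fin (n + 1) → V) :
    bd (of (List.ofFn a)) =
      ∑ i : Fin (n + 1), (-1 : ℤ) ^ (i : ℕ) • of (List.ofFn fun j => a (i.succAbove j)) := by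
  induction n with
  | zero => simp [bd, bd0]
  | succ n ih =>
    rw [List.ofFn_succ, ← cn_of, bd_cn, ih, Fin.sum_univ_succ (n := n + 1), map_sum, sub_eq_add_neg,
      ← Finset.sum_neg_distrib]
    simp [pow_succ, List.ofFn_succ]

theorem bd_len (L : List V) : bd (of L) ∈ sp (Vx Set.univ (L.length - 1)) := by
  obtain _ | ⟨a, L⟩ := L
  · rw [bd_nil]; exact zero_mem _
  · exact bd_sp (of_sp ⟨rfl, fun _ _ => trivial⟩)

theorem co_bd (c : Ch V) : co F (bd c) =
    co (fun a : Fin (n + 1) → V =>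
      ∑ i : Fin (n + 1), (-1 : ℤ) ^ (i : ℕ) • F fun j => a (i.succAbove j)) c :=
  co_ext (φ := (co F).comp bd) (fun a => by
    simp only [AddMonoidHom.comp_apply, bd_ofFn, map_sum, map_zsmul, co_ofFn])
    (fun L h => by
      obtain _ | ⟨a, L⟩ := L
      · simp
      · exact sp_ext (ψ := 0) (fun L' k => co_ne F fun e => h (congrArg (· + 1) (k.1.symm.trans e)))
          (bd_len (a :: L))) c

end co

/-- **Cramer's rule** -/
theorem cramer {R : Type*} [CommRing R] {n : ℕ} (x : Fin n → R) (a : Fin (n + 1) → Fin n → R) :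
    ∑ i : Fin (n + 1), (-1) ^ (i : ℕ) * (∑ k, a i k * x k) *
      (Matrix.of fun j => a (i.succAbove j)).det = 0 := by
  have h := fun k => Matrix.det_succ_column_zero
    (Matrix.of fun i => (Fin.cons (a i k) (a i) : Fin (n + 1) → R))
  have z := fun k => Matrix.det_zero_of_column_eq
    (M := Matrix.of fun i => (Fin.cons (a i k) (a i) : Fin (n + 1) → R)) (Fin.succ_ne_zero k).symm
    fun i => rfl
  simp only [Finset.mul_sum, Finset.sum_mul]
  rw [Finset.sum_comm]
  refine Finset.sum_eq_zero fun k _ => ?_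
  rw [← mul_zero (x k), ← z k, h k, Finset.mul_sum]
  exact Finset.sum_congr rfl fun i _ => by
    rw [show (Matrix.of fun i => (Fin.cons (a i k) (a i) : Fin (n + 1) → R)).submatrix i.succAbove
      Fin.succ = Matrix.of fun j => a (i.succAbove j) from rfl, Matrix.of_apply, Fin.cons_zero]
    ring

end Vale.Agent.P004C.An
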