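import Vale.Agent.P004C.An.Tx

/-!
# P004 C, block AN: the rational cocycle as a determinant of normalised rows
-/

set_option autoImplicit false

open Finset MvPowerSeries

noncomputable section

namespace Vale.Agent.P004C.An

variable {n : ℕ}

/-- power series in `n` variables -/
abbrev PS (n : ℕ) : Type := MvPowerSeries (Fin n) ℂ

/-- `l (x + X)` -/
def pl (l x : Fin n → ℂ) : PS n := C (lf l x) + ∑ i, C (l i) * X i

theorem lf_mul (u l x : Fin n → ℂ) : lf (u * l) x = lf l (u * x) :=
  sum_congr rfl fun i _ => by simp only [Pi.mul_apply]; ring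

theorem lf_add (l x y : Fin n → ℂ) : lf l (x + y) = lf l x + lf l y := by
  simp [lf, mul_add, sum_add_distrib]

theorem lf_nsmul (l x : Fin n → ℂ) (t : ℕ) : lf l (t • x) = t * lf l x := by
  simp [lf, mul_sum, mul_left_comm]

theorem pl_eq (l x : Fin n → ℂ) : pl l x = ∑ i, C (l i) * (C (x i) + X i) := by
  simp [pl, lf, mul_add, sum_add_distrib]

theorem pl_cc (l x : Fin n → ℂ) : constantCoeff (pl l x) = lf l x := by simp [pl]

theorem pl_single (i : Fin n) (x : Fin n → ℂ) : pl (Pi.single i 1) x = C (x i) + X i := by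
  rw [pl_eq, sum_eq_single i (fun j _ h => by simp [h]) (by simp)]
  simp

theorem rs_C (u : Fin n → ℂ) (a : ℂ) : rescale u (C a : PS n) = C a := by
  ext m
  rw [coeff_rescale, coeff_C]
  split_ifs with h <;> simp [h]

theorem rs_X (u : Fin n → ℂ) (i : Fin n) : rescale u (X i : PS n) = C (u i) * X i := by
  ext m
  rw [coeff_rescale, coeff_C_mul, coeff_X]
  split_ifs with h <;> simp [h]

theorem rs_inv (u : Fin n → ℂ) (f : PS n) : rescale u f⁻¹ = (rescale u f)⁻¹ := by
  have e : constantCoeff (rescale u f) = constantCoeff f := by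
    rw [← coeff_zero_eq_constantCoeff_apply, coeff_rescale]
    simp
  by_cases h : constantCoeff f = 0
  · rw [MvPowerSeries.inv_eq_zero.2 h, MvPowerSeries.inv_eq_zero.2 (e.trans h), map_zero]
  · rw [MvPowerSeries.eq_inv_iff_mul_eq_one (e ▸ h), ← map_mul, MvPowerSeries.inv_mul_cancel _ h,
      map_one]

theorem pl_mul (u l x : Fin n → ℂ) : pl (u * l) x = rescale u (pl l (u * x)) := by
  simp only [pl, lf_mul, map_add, map_sum, map_mul, rs_C, rs_X, Pi.mul_apply, mul_assoc,
    mul_left_comm (C (u _))]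

/-- the universal coefficient -/
def cf (l : Fin n → ℂ) (m : Fin n →₀ ℕ) : ℂ := coeff m (1 + ∑ i, C (l i) * X i : PS n)⁻¹

/-- **coefficients of `1 / l (x + X)`** -/
theorem coeff_pl (l x : Fin n → ℂ) (m : Fin n →₀ ℕ) :
    coeff m (pl l x)⁻¹ = cf l m * (lf l x)⁻¹ ^ (m.degree + 1) := by
  by_cases h : lf l x = 0
  · rw [MvPowerSeries.inv_eq_zero.2 ((pl_cc l x).trans h), h]
    simp
  · have e : pl l x = rescale (fun _ => (lf l x)⁻¹) (1 + ∑ i, C (l i) * X i) * C (lf l x) := by
      simp only [pl, map_add, map_one, map_sum, map_mul, rs_C, rs_X, add_mul, one_mul, sum_mul]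
      refine congrArg _ (sum_congr rfl fun i _ => ?_)
      rw [mul_assoc, mul_right_comm, ← map_mul, inv_mul_cancel₀ h, map_one, one_mul]
    rw [e, MvPowerSeries.mul_inv_rev, C_inv, coeff_C_mul, ← rs_inv, coeff_rescale, cf, Finsupp.prod,
      prod_pow_eq_pow_sum, Finsupp.degree_apply]
    ring

theorem cs_eq (l : Fin n → Fin n → ℂ) (x : Fin n → ℂ) :
    cs l x = C (Matrix.of l).det * ∏ j, (pl (l j) x)⁻¹ := rfl

/-- the normalised row of a form -/
def nv (l x : Fin n → ℂ) (i : Fin n) : PS n := (pl l x)⁻¹ * C (l i)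

/-- a weighted mean of the normalised coordinate forms -/
def nw (ρ x : Fin n → ℂ) (i : Fin n) : PS n := (pl (Pi.single i 1) x)⁻¹ * C (ρ i)

theorem det_nv (l : Fin n → Fin n → ℂ) (x : Fin n → ℂ) :
    (Matrix.of fun j => nv (l j) x).det = cs l x := by
  rw [cs_eq, RingHom.map_det, mul_comm, ← Matrix.det_mul_column]
  rfl

theorem det_nw (ρ : Fin n → Fin n → ℂ) (x : Fin n → ℂ) : (Matrix.of fun j => nw (ρ j) x).det =
    C (Matrix.of ρ).det * ∏ i, (pl (Pi.single i 1) x)⁻¹ := by
  rw [RingHom.map_det, mul_comm, ← Matrix.det_mul_row]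
  rfl

theorem nv_one {l x : Fin n → ℂ} (h : lf l x ≠ 0) : ∑ k, nv l x k * (C (x k) + X k) = 1 := by
  simp only [nv, mul_assoc, ← mul_sum, ← pl_eq]
  exact MvPowerSeries.inv_mul_cancel _ (by rwa [pl_cc])

theorem lf_single (i : Fin n) (x : Fin n → ℂ) : lf (Pi.single i 1) x = x i := by
  rw [← pl_cc, pl_single]
  simp

theorem nw_one {ρ x : Fin n → ℂ} (h : ∀ i, x i ≠ 0) (h1 : ∑ i, ρ i = 1) :
    ∑ k, nw ρ x k * (C (x k) + X k) = 1 := by
  rw [← map_one (C : ℂ →+* PS n), ← h1, map_sum]
  refine sum_congr rfl fun i _ => ?_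
  rw [nw, mul_right_comm, ← pl_single, MvPowerSeries.inv_mul_cancel _ (by
    rw [pl_cc, lf_single]; exact h i), one_mul]

theorem nv_mul (u l x : Fin n → ℂ) (i : Fin n) :
    nv (u * l) x i = C (u i) * rescale u (nv l (u * x) i) := by
  simp only [nv, pl_mul, map_mul, rs_inv, rs_C, Pi.mul_apply]
  ring

theorem nw_mul {u : Fin n → ℂ} (hu : ∀ i, u i ≠ 0) (ρ x : Fin n → ℂ) (i : Fin n) :
    nw ρ x i = C (u i) * rescale u (nw ρ (u * x) i) := by
  have e : rescale u (pl (Pi.single i 1) (u * x)) = pl (Pi.single i 1) x * C (u i) := by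
    simp only [pl_single, map_add, rs_C, rs_X, Pi.mul_apply, map_mul]
    ring
  simp only [nw, map_mul, rs_inv, rs_C, e, MvPowerSeries.mul_inv_rev, C_inv]
  rw [← mul_assoc, ← mul_assoc, ← map_mul, mul_inv_cancel₀ (hu i), map_one, one_mul]

theorem coeff_dg (u : Fin n → ℂ) (k : ℕ) (f : PS n) :
    coeff (dg n k) (rescale u f) = (∏ i, u i) ^ (k - 1) * coeff (dg n k) f := by
  rw [coeff_rescale, Finsupp.prod_fintype _ _ (by simp), ← prod_pow]
  rfl

/-- determinants of equivariant rows -/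
theorem det_rs {u : Fin n → ℂ} (hu : ∏ i, u i = 1) (k : ℕ) {a b : Fin n → Fin n → PS n}
    (h : ∀ j i, a j i = C (u i) * rescale u (b j i)) :
    coeff (dg n k) (Matrix.of a).det = coeff (dg n k) (Matrix.of b).det := by
  have e : Matrix.of a = Matrix.of fun j i => C (u i) * (rescale u).mapMatrix (Matrix.of b) j i :=
    Matrix.ext h
  rw [e, Matrix.det_mul_row, ← map_prod, hu, ← RingHom.map_det, map_one, one_mul, coeff_dg, hu,
    one_pow, one_mul]

/-- the alternating series in the variables of `S` -/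
def gs (S : Finset (Fin n)) : PS n := fun m => if ∀ i ∉ S, m i = 0 then ∏ i, (-1) ^ m i else 0

theorem coeff_gs (S : Finset (Fin n)) (m : Fin n →₀ ℕ) :
    coeff m (gs S) = if ∀ i ∉ S, m i = 0 then ∏ i, (-1) ^ m i else 0 := rfl

theorem geo (S : Finset (Fin n)) : (∏ i ∈ S, (1 + X i : PS n)⁻¹) = gs S := by
  induction S using Finset.induction_on with
  | empty =>
    ext m
    rw [prod_empty, coeff_one, coeff_gs]
    by_cases h : m = 0
    · simp [h]
    · rw [if_neg h, if_neg fun k => h (Finsupp.ext fun i => k i (by simp))]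
  | insert j S hj ih =>
    have c : constantCoeff (1 + X j : PS n) ≠ 0 := by simp
    rw [prod_insert hj, ih, mul_comm, eq_comm, MvPowerSeries.eq_mul_inv_iff_mul_eq c, mul_add,
      mul_one]
    ext m
    rw [map_add, X_def, coeff_mul_monomial]
    simp only [coeff_gs, mul_one, Finsupp.single_le_iff]
    by_cases h : m j = 0
    · rw [if_neg (by omega : ¬1 ≤ m j), add_zero]
      refine if_congr ⟨fun k i s => ?_, fun k i s => k i fun e => s (mem_insert_of_mem e)⟩ rfl rfl
      by_cases e : i = j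
      · exact e ▸ h
      · exact k i (by simp [e, s])
    · have e : (∀ i ∉ insert j S, (m - Finsupp.single j 1 : Fin n →₀ ℕ) i = 0) ↔
          ∀ i ∉ insert j S, m i = 0 := forall₂_congr fun i s => by
        rw [Finsupp.tsub_apply, Finsupp.single_eq_of_ne fun e => s (by simp [e]), Nat.sub_zero]
      rw [if_pos (by omega : 1 ≤ m j), if_neg (fun k : ∀ i ∉ S, m i = 0 => h (k j hj)),
        if_congr e rfl rfl]
      split_ifs
      · rw [← mul_prod_erase _ _ (mem_univ j), ← mul_prod_erase _ _ (mem_univ j),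
          prod_congr rfl (g := fun i => (-1 : ℂ) ^ m i) (s₁ := univ.erase j)
            (f := fun i => (-1 : ℂ) ^ (m - Finsupp.single j 1 : Fin n →₀ ℕ) i) fun i s => by
            rw [Finsupp.tsub_apply, Finsupp.single_eq_of_ne (ne_of_mem_erase s), Nat.sub_zero],
          Finsupp.tsub_apply, Finsupp.single_eq_same]
        obtain ⟨t, ht⟩ := Nat.exists_eq_succ_of_ne_zero h
        rw [ht]
        simp [pow_succ]
      · simp

/-- **the coordinate forms give `± 1 / N x ^ k`** -/
theorem ck_one {x : Fin n → ℂ} (h : ∀ i, x i ≠ 0) {k : ℕ} (hk : 0 < k) :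
    coeff (dg n k) (∏ i, (pl (Pi.single i 1) x)⁻¹) = (-1) ^ (n * (k - 1)) / (∏ i, x i) ^ k := by
  have e : ∀ i, (pl (Pi.single i 1) x)⁻¹ = C (x⁻¹ i) * rescale x⁻¹ (1 + X i)⁻¹ := fun i => by
    have := nw_mul (u := x⁻¹) (fun i => inv_ne_zero (h i)) 1 x i
    simpa [nw, pl_single, h i] using this
  rw [prod_congr rfl fun i _ => e i, prod_mul_distrib, ← map_prod, ← map_prod, coeff_C_mul,
    coeff_dg, geo, coeff_gs, if_pos (by simp), ← mul_assoc, ← pow_succ', Nat.sub_add_cancel hk]
  simp [dg, div_eq_inv_mul, ← pow_mul, mul_comm]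

theorem cb_one {G : Type*} [CommGroup G] (L : List G) : 1 ∈ cb L := by
  induction L with
  | nil => rfl
  | cons e L ih => exact .inl ih

theorem cyc_cb {G : Type*} [CommGroup G] (L : List G) : cyc L ∈ sp (Vx (cb L) (L.length + 1)) := by
  induction L with
  | nil => exact of_sp ⟨rfl, by simp [cb]⟩
  | cons e L ih => exact pr_sp (fun _ => .inl) (fun a h => .inr ⟨a, h, rfl⟩) ih

end Vale.Agent.P004C.An
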