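import Vale.Agent.P004C.An.Pri

/-!
# P004 C, block AN: interpolation from SYM and DEG
-/

set_option autoImplicit false

open Finset Complex

noncomputable section

namespace Vale.Agent.P004C.An.Ip

variable {p : ℕ} {U : Type} [CommGroup U] {ch : U →* (Fin (p + 1) → ℂ)} {ε : Fin p → U}

/-- logarithmic coordinates -/
def yy (ch : U →* (Fin (p + 1) → ℂ)) (u : U) (i : Fin (p + 1)) : ℝ := Real.log (normSq (ch u i))

theorem yy_mul (h1 : ∀ u, ∏ i, ch u i = 1) (u v : U) : yy ch (u * v) = yy ch u + yy ch v :=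
  funext fun i => by
    simp only [yy, map_mul, Pi.mul_apply, Pi.add_apply]
    exact Real.log_mul (normSq_pos.2 (ch_ne h1 u i)).ne' (normSq_pos.2 (ch_ne h1 v i)).ne'

theorem indep (h1 : ∀ u, ∏ i, ch u i = 1) (h2 : ∀ u, ∃! m : Fin p → ℤ, u = ∏ j, ε j ^ m j)
    (h3 : ∀ R : ℝ, {u | ‖ch u‖ ≤ R}.Finite) :
    LinearIndependent ℝ (Fin.cons 1 fun j => yy ch (ε j) : Fin (p + 1) → Fin (p + 1) → ℝ) := by
  rw [Fintype.linearIndependent_iff]
  intro g hg
  simp only [Fin.sum_univ_succ, Fin.cons_zero, Fin.cons_succ] at hg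
  have s : ∀ u, ∑ i, yy ch u i = 0 := fun u => by
    simp only [yy]
    rw [← Real.log_prod fun i _ => (normSq_pos.2 (ch_ne h1 u i)).ne', ← map_prod, h1, map_one,
      Real.log_one]
  have g0 : g 0 = 0 := by
    have := congrArg (fun v : Fin (p + 1) → ℝ => ∑ i, v i) hg
    simp only [Pi.add_apply, Finset.sum_apply, Pi.smul_apply, smul_eq_mul, sum_add_distrib] at this
    rw [sum_comm] at this
    simpa [← mul_sum, s, Nat.cast_add_one_ne_zero] using this
  rw [g0, zero_smul, zero_add] at hg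
  refine Fin.cases g0 fun j => not_not.1 fun hj => ?_
  let Y : U →* Multiplicative (Fin (p + 1) → ℝ) :=
    MonoidHom.mk' (fun u => .ofAdd (yy ch u)) fun u v => congrArg _ (yy_mul h1 u v)
  have e : ∀ m : Fin p → ℤ, yy ch (∏ j, ε j ^ m j) = ∑ j, (m j : ℝ) • yy ch (ε j) := fun m => by
    have := congrArg Multiplicative.toAdd (map_prod Y (fun j => ε j ^ m j) univ)
    simp only [map_zpow, toAdd_prod, toAdd_zpow] at this
    simp only [Int.cast_smul_eq_zsmul]
    exact this
  obtain ⟨M, hM⟩ := (((h3 √(Real.exp (∑ j, ‖yy ch (ε j)‖))).preimage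
    (f := fun m : Fin p → ℤ => ∏ j, ε j ^ m j) fun a _ b _ k =>
      (h2 _).unique rfl k).image fun m => |(m j : ℝ)|).bddAbove
  obtain ⟨t, ht⟩ := exists_nat_gt ((M + 1) / |g j.succ|)
  have k : |(⌊t * g j.succ⌋ : ℝ)| ≤ M := hM ⟨fun j => ⌊t * g j.succ⌋, ?_, rfl⟩
  · rw [div_lt_iff₀ (abs_pos.2 hj), ← Nat.abs_cast, ← abs_mul, lt_abs] at ht
    have := Int.floor_le (t * g j.succ)
    have := Int.lt_floor_add_one (t * g j.succ)
    rw [abs_le] at k
    obtain h | h := ht <;> linarith
  · refine (pi_norm_le_iff_of_nonneg (Real.sqrt_nonneg _)).2 fun i => Real.le_sqrt_of_sq_le ?_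
    rw [← normSq_eq_norm_sq, ← Real.log_le_iff_le_exp (normSq_pos.2 (ch_ne h1 _ i))]
    have z : yy ch (∏ j, ε j ^ ⌊t * g j.succ⌋) =
        ∑ j, ((⌊t * g j.succ⌋ : ℝ) - t * g j.succ) • yy ch (ε j) := by
      simp only [e, sub_smul, sum_sub_distrib, mul_smul, ← smul_sum, hg, smul_zero, sub_zero]
    refine (le_abs_self _).trans ((norm_le_pi_norm (yy ch _) i).trans ?_)
    rw [z]
    refine norm_sum_le_of_le _ fun j _ => (norm_smul_le _ _).trans (mul_le_of_le_one_left
      (norm_nonneg _) ?_)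
    rw [Real.norm_eq_abs, abs_sub_comm]
    exact Int.abs_fract.trans_le (Int.fract_lt_one _).le

variable (ch)

/-- the local degree -/
def ka (c : Ch U) (x : Fin (p + 1) → ℂ) : ℂ :=
  co (fun a : Fin (p + 1) → U => (Matrix.of fun j => wt (ch (a j) * x)).det) c

/-- the homogeneous function of the main term -/
def mG (c : Ch U) (k : ℕ) (z : ℂ × (Fin (p + 1) → ℂ)) : ℂ := (∏ i, nf k z.1 (z.2 i)) * ka ch c z.2

variable {ch}

theorem hm_mG (h1 : ∀ u, ∏ i, ch u i = 1) (c : Ch U) (k : ℕ) :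
    Hm ((p + 1) • fun s : ℂ => k + 2 * s) (mG ch c k) := by
  let Z : AddSubgroup (ℂ × (Fin (p + 1) → ℂ) → ℂ) :=
    { carrier := {G | Hm ((p + 1) • fun s : ℂ => k + 2 * s) G}
      zero_mem' := Hm.zero
      add_mem' := Hm.add
      neg_mem' := Hm.neg }
  have e : mG ch c k = co (fun (a : Fin (p + 1) → U) z =>
      (Matrix.of fun j i => gg (ch (a j)) i k z).det) c := funext fun z => by
    rw [co_ev, mG, ka, ← co_mul]
    exact congrArg (co · c) (funext fun a => (Matrix.det_mul_row _ _).symm)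
  rw [e]
  refine sp_map _ Z (fun L _ => ?_) (sp_top c)
  by_cases w : L.length = p + 1
  · obtain ⟨a, rfl⟩ := ex_ofFn w
    rw [co_ofFn]
    convert sum_mem (t := univ) fun (σ : Equiv.Perm (Fin (p + 1))) _ => Z.zsmul_mem
      (x := ∏ i, gg (ch (a (σ i))) i k) (by
        have := Hm.prod univ fun i => hm_gg (ch_ne h1 (a (σ i))) i k
        rwa [card_univ, Fintype.card_fin] at this) (Equiv.Perm.sign σ) using 1
    ext1 z
    simp [Matrix.det_apply']
  · rw [co_ne _ w]
    exact zero_mem _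

end Vale.Agent.P004C.An.Ip

namespace Vale.Agent.P004C.An

open Ip

theorem ipl0 (hS : SYM) (hD : DEG) : IPL := by
  intro p U _ ch ε h1 h2 h3
  obtain ⟨η, hη, H⟩ := hD p U (yy ch) ε (yy_mul h1) (indep h1 h2 h3)
  refine ⟨η, hη, fun X _ _ em l φ B c κ r k hi he hf hB hφ hc h hz hr hs hk => ?_⟩
  have η2 : η * η = 1 := by obtain rfl | rfl := hη <;> simp
  set cy := cyc (List.ofFn ε)
  have hK : ∀ x : Fin (p + 1) → ℂ, (∀ i, x i ≠ 0) → HasSum (fun u => ka ch cy (ch u * x)) η := by
    intro x hx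
    have n0 : ∀ u i, (ch u * x) i ≠ 0 := fun u i => mul_ne_zero (ch_ne h1 u i) (hx i)
    rw [← (Equiv.ofBijective (fun m : Fin p → ℤ => ∏ j, ε j ^ m j)
      ⟨fun a b k => (h2 _).unique rfl k, fun u => (h2 u).exists.imp fun _ => .symm⟩).hasSum_iff]
    convert H (fun u => wt (ch u * x)) (Real.log (2 * (p + 1 : ℕ)) +
      2 * ‖fun i => Real.log (normSq (x i))‖) (fun u => wt_sum fun e => n0 u 0 (congrFun e 0))
      fun u i j w => ?_ using 2 with m
    · rw [co_mp]
      simp only [Function.comp_apply, ka, map_mul, mul_assoc, mul_left_comm (ch (∏ j, ε j ^ m j))]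
      rfl
    · have a := wt_log (n0 u) w j
      have b := fun i => abs_le.1 (norm_le_pi_norm (fun i => Real.log (normSq (x i))) i)
      simp only [Pi.mul_apply, map_mul, fun i => Real.log_mul (normSq_pos.2 (ch_ne h1 u i)).ne'
        (normSq_pos.2 (hx i)).ne'] at a
      simp only [yy]
      linarith [b i, b j]
  obtain ⟨d, q, z, -⟩ := hz 1 fun _ => cb_one _
  obtain ⟨S1, S2⟩ := hS _ X em hi hf _ _ φ B (hm_mG h1 cy k) hB
  have re : ∀ s : ℂ, (((p + 1) • fun s : ℂ => k + 2 * s) s).re = (p + 1) * (k + 2 * s.re) := by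
    simp [mul_add]
  obtain ⟨D, hD, R⟩ := S2 d q {s | 0 < (k : ℝ) + 2 * s.re} z (isOpen_lt (by fun_prop) (by fun_prop))
    (fun s w => by rw [re]; exact mul_nonneg (by positivity) w.le) fun x => by
      simp only [mG, nf]
      fun_prop
  refine ⟨fun s => η * D s, hD.const_mul _, fun s w => ?_, ?_⟩
  · have a := (S1 s (by
      rw [re, Module.finrank_pi_fintype]
      simp only [finrank_real_complex, sum_const, card_univ, Fintype.card_fin, smul_eq_mul]
      push_cast
      exact mul_lt_mul_of_pos_left w (by positivity))).hasSum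
    rw [(Reg.of_hasSum a).uniq (R s (two_pos.trans w)), ← hr.hasSum_iff fun x n =>
      mul_eq_zero_of_left (not_not.1 fun e => n (by
        obtain ⟨i, u, rfl⟩ := hs x e
        exact ⟨(i, u), rfl⟩)) _] at a
    have b := (a.prod_fiberwise (g := fun i => φ (r i) * nf k s (∏ j, em (r i) j) * η) fun i => ?_
      ).mul_left η
    · refine b.congr_fun fun i => ?_
      by_cases e : φ (r i) = 0
      · simp [e]
      · rw [nf_eq _ _ (prod_ne_zero_iff.2 fun j _ => (h _ e).1 j), mul_left_comm, η2]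
        ring
    · by_cases e : φ (r i) = 0
      · simp [hφ, e]
      · refine ((hK _ (h _ e).1).mul_left (φ (r i) * nf k s (∏ j, em (r i) j))).congr_fun fun u => ?_
        simp only [Function.comp_apply, hφ, mG, mul_assoc]
        rw [← nf_prod _ _ (h _ ((hφ u _).trans_ne e)).1, he]
        simp only [Pi.mul_apply, prod_mul_distrib, h1, one_mul]
  · have a := Ps_bd (ch := ch) (l := l) (em := em) (φ := φ) k (fun x e v => by
      obtain u | u := v
      · refine nv_one (norm_pos_iff.1 (hc.trans_le ?_))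
        rw [lf_mul, ← he]
        exact (h _ ((hφ u _).trans_ne e)).2
      · exact nw_one (h x e).1 (wt_sum (mul_ne (ch_ne h1 u) fun w => (h x e).1 0 (congrFun w 0))))
      (pr .inl .inr cy)
    rw [bd_pr, map_sub, map_sub, sub_right_comm, sub_eq_zero] at a
    refine (((R 0 (by simpa using hk)).smul ((-1) ^ ((p + 1) * (k - 1)))).sub
      (Ps_reg k hS h1 hi he hf hB hφ (l := l) hc (fun x e => (h x e).2) (L := List.ofFn ε) ?_)).congr
      (fun x => ?_) (by linear_combination (-1) ^ ((p + 1) * (k - 1)) * D 0 * η2)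
    · rw [List.length_ofFn]
      exact hz
    · have a1 : Ps ch l em φ k (mp .inl cy) x =
          φ x * co (fun a : Fin (p + 1) → U => ck k (fun j => ch (a j) * l) (em x)) cy := by
        rw [Ps, co_mp, co_ev, ← co_mul]
        exact congrArg (co · _) (funext fun a => congrArg (φ x * MvPowerSeries.coeff _ ·)
          (det_nv _ _))
      rw [← a1, ← a, Pi.sub_apply, sub_left_inj]
      by_cases e : φ x = 0
      · rw [Ps, co_mp, co_ev, co_zero (by simp [e]), e, zero_mul, mul_zero]
      · rw [Ps, co_mp, co_ev, mG, ka, ← co_mul, ← co_mul, ← co_mul]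
        refine congrArg (co · _) (funext fun a => ?_)
        simp only [Function.comp_apply, row]
        rw [det_nw, MvPowerSeries.coeff_C_mul, ck_one (h x e).1 hk, ← nf_prod _ _ (h x e).1, nf]
        simp only [neg_zero, zero_mul, exp_zero, mul_one, inv_pow]
        ring

end Vale.Agent.P004C.An
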