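import Vale.Agent.P004C.An.Wt

/-!
# P004 C, block AN: the prism from the arithmetic vertices to the coordinate forms
-/

set_option autoImplicit false

open Finset MvPowerSeries

noncomputable section

namespace Vale.Agent.P004C.An.Ip

variable {n : ℕ} {U Y : Type} [CommGroup U] [AddCommGroup Y] (ch : U →* (Fin n → ℂ))
  (l : Fin n → ℂ) (em : Y →+ (Fin n → ℂ)) (φ : Y → ℂ) (d : Y) (k : ℕ)

theorem co_zero {V A : Type*} [AddCommGroup A] {F : (Fin n → V) → A} (h : ∀ a, F a = 0)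
    (c : Ch V) : co F c = 0 :=
  (co_ext (φ := 0) (fun a => (h a).symm) (fun _ _ => rfl) c).symm

theorem co_mul {V : Type*} (F : (Fin n → V) → ℂ) (z : ℂ) (c : Ch V) :
    co (fun a => z * F a) c = z * co F c := (map_co F (AddMonoidHom.mulLeft z) c).symm

theorem co_ev {V W : Type*} (F : (Fin n → V) → W → ℂ) (x : W) (c : Ch V) :
    co F c x = co (fun a => F a x) c := map_co F (Pi.evalAddMonoidHom (fun _ => ℂ) x) c

/-- invariant bounded function times homogeneous function -/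
def Bs : Submonoid (Y → ℂ) where
  carrier := {f | ∃ (A : Y → ℂ) (G : ℂ × (Fin n → ℂ) → ℂ) (b : ℂ → ℂ) (c : ℝ), Hm b G ∧
    0 ≤ (b 0).re ∧ (∀ x, A (x + d) = A x) ∧ (∀ x, φ x ≠ 0 → ‖A x‖ ≤ c) ∧
    f = fun x => A x * G (0, em x)}
  one_mem' := ⟨1, _, _, 1, Hm.const 1, by simp, fun _ => rfl, by simp, by ext; simp⟩
  mul_mem' := by
    rintro _ _ ⟨A, G, b, c, h1, h2, h3, h4, rfl⟩ ⟨A', G', b', c', k1, k2, k3, k4, rfl⟩
    refine ⟨A * A', _, _, c * c', h1.mul k1, add_nonneg h2 k2, fun x => by simp [h3, k3],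
      fun x h => ?_, funext fun x => mul_mul_mul_comm _ _ _ _⟩
    exact (norm_mul_le _ _).trans (mul_le_mul (h4 x h) (k4 x h) (norm_nonneg _)
      ((norm_nonneg _).trans (h4 x h)))

/-- series with good coefficients -/
def TT : Subring (Y → PS n) where
  carrier := {F | ∀ m, (fun x => coeff m (F x)) ∈ Subring.closure (Bs em φ d : Set (Y → ℂ))}
  zero_mem' _ := zero_mem _
  one_mem' m := Subring.subset_closure ⟨fun _ => coeff m (1 : PS n), _, _, _, Hm.const 1, by simp,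
    fun _ => rfl, fun _ _ => le_rfl, by simp⟩
  add_mem' h h' m := add_mem (h m) (h' m)
  neg_mem' h m := neg_mem (h m)
  mul_mem' {F F'} h h' m := by
    convert sum_mem (t := antidiagonal m) fun z _ => mul_mem (h z.1) (h' z.2) using 1
    ext x
    simp [coeff_mul]

variable {em φ d}

theorem nv_TT {c : ℝ} (hc : 0 < c) (h : ∀ x, φ x ≠ 0 → c ≤ ‖lf l (em x)‖) (hd : lf l (em d) = 0)
    (i : Fin n) : (fun x => nv l (em x) i) ∈ TT em φ d := fun m =>
  Subring.subset_closure ⟨fun x => cf l m * l i * (lf l (em x))⁻¹ ^ (m.degree + 1), _, _,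
    ‖cf l m * l i‖ * c⁻¹ ^ (m.degree + 1), Hm.const 1, by simp,
    fun x => by simp only [map_add, lf_add, hd, add_zero], fun x k => by
      rw [norm_mul, norm_pow, norm_inv]
      gcongr
      exact h x k, funext fun x => by simp only [nv, coeff_mul_C, coeff_pl]; ring⟩

theorem nw_TT {u : Fin n → ℂ} (hu : ∀ i, u i ≠ 0) (i : Fin n) :
    (fun x => nw (wt (u * em x)) (em x) i) ∈ TT em φ d := fun m =>
  Subring.subset_closure ⟨fun _ => cf (Pi.single i 1) m, _, _, _, hm_gg hu i (m.degree + 1),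
    by simp; positivity, fun _ => rfl, fun _ _ => le_rfl, funext fun x => by
      simp [nw, coeff_mul_C, coeff_pl, lf_single, gg, nf, mul_assoc]⟩

theorem det_TT {a : Y → Fin n → Fin n → PS n} (h : ∀ j i, (fun x => a x j i) ∈ TT em φ d) :
    (fun x => (Matrix.of (a x)).det) ∈ TT em φ d := by
  convert sum_mem (t := univ) fun (σ : Equiv.Perm (Fin n)) _ =>
    mul_mem (intCast_mem (TT em φ d) (Equiv.Perm.sign σ)) (prod_mem fun i (_ : i ∈ univ) => h (σ i) i)
    using 1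
  ext1 x
  simp [Matrix.det_apply']

theorem reg_T (hS : SYM) (hi : Function.Injective em) (hf : ∀ R : ℝ, {x | ‖em x‖ ≤ R}.Finite) {B : ℝ}
    (hB : ∀ x, ‖φ x‖ ≤ B) {q : ℕ} (hz : MZ φ d q) {f : Y → ℂ}
    (h : f ∈ Subring.closure (Bs em φ d : Set (Y → ℂ))) : ∃ s, Reg (fun x => φ x * f x) s := by
  rw [Subring.mem_closure_iff, Submonoid.closure_eq] at h
  induction h using AddSubgroup.closure_induction with
  | zero => exact ⟨0, Reg.zero.congr (by simp) rfl⟩
  | add _ _ _ _ a b => exact ⟨_, (a.choose_spec.add b.choose_spec).congr (by simp [mul_add]) rfl⟩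
  | neg _ _ a => exact ⟨_, a.choose_spec.neg.congr (by simp) rfl⟩
  | mem f h =>
    obtain ⟨A, G, b, c, h1, h2, h3, h4, rfl⟩ := h
    have e : ∀ (t : ℕ) x, A (x + t • d) = A x := fun t x => by
      induction t with
      | zero => simp
      | succ t ih => rw [succ_nsmul, ← add_assoc, h3, ih]
    obtain ⟨D, -, r⟩ := (hS _ Y em hi hf _ _ (fun x => φ x * A x) (B * |c|) (h1.frz 0) fun x => by
      by_cases k : φ x = 0
      · rw [k, zero_mul, norm_zero]
        exact mul_nonneg ((norm_nonneg _).trans (hB x)) (abs_nonneg _)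
      · exact (norm_mul_le _ _).trans (mul_le_mul (hB x) ((h4 x k).trans (le_abs_self c))
          (norm_nonneg _) ((norm_nonneg _).trans (hB x)))).2 d q Set.univ
      ⟨hz.1, fun x => by simp only [e, ← sum_mul, hz.2, zero_mul]⟩ isOpen_univ (fun _ _ => h2)
      fun x => differentiableOn_const (G (0, x))
    exact ⟨_, (r 0 trivial).congr (fun x => (mul_assoc _ _ _).symm) rfl⟩

/-- the rows -/
def row : U ⊕ U → (Fin n → ℂ) → Fin n → PS n
  | .inl u, x => nv (ch u * l) x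
  | .inr u, x => nw (wt (ch u * x)) x

variable (em φ)

/-- the cochain -/
def Ps : Ch (U ⊕ U) →+ (Y → ℂ) := co fun b : Fin n → U ⊕ U => fun x =>
  φ x * coeff (dg n k) (Matrix.of fun j => row ch l (b j) (em x)).det

variable {ch l em φ}

theorem ch_ne (h1 : ∀ u, ∏ i, ch u i = 1) (u : U) (i : Fin n) : ch u i ≠ 0 :=
  prod_ne_zero_iff.1 ((h1 u).trans_ne one_ne_zero) i (mem_univ i)

theorem Ps_bd (h : ∀ x, φ x ≠ 0 → ∀ v, ∑ i, row ch l v (em x) i * (C (em x i) + X i) = 1)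
    (c : Ch (U ⊕ U)) : Ps ch l em φ k (bd c) = 0 := by
  rw [Ps, co_bd]
  refine co_zero (fun a => funext fun x => ?_) c
  by_cases e : φ x = 0
  · simp [e]
  · have := congrArg (fun z => φ x * coeff (dg n k) z)
      (cramer (fun i => C (em x i) + X i) fun j => row ch l (a j) (em x))
    simp only [h x e, mul_one, map_sum, mul_sum, map_zero, mul_zero] at this
    rw [Pi.zero_apply, ← this, Finset.sum_apply]
    refine sum_congr rfl fun i _ => ?_
    obtain h | h := Nat.even_or_odd i <;> simp [h.neg_one_pow]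

theorem Ps_mp [DistribMulAction U Y] (h1 : ∀ u, ∏ i, ch u i = 1)
    (he : ∀ u x, em (u • x) = ch u * em x) (hφ : ∀ (u : U) x, φ (u • x) = φ x) (e : U) (c : Ch U) :
    Ps ch l em φ k (pr .inl .inr (tr e c)) = fun x => Ps ch l em φ k (pr .inl .inr c) (e • x) := by
  have a : pr .inl .inr (tr e c) = mp (Sum.map (e * ·) (e * ·)) (pr .inl .inr c) := by
    rw [pr_mp, mp_pr]
    rfl
  funext x
  rw [a, Ps, co_mp, co_ev, co_ev]
  refine congrArg (co · _) (funext fun b => ?_)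
  rw [hφ, he]
  refine congrArg _ (det_rs (h1 e) k fun j i => ?_)
  rw [Function.comp_apply]
  obtain u | u := b j
  · simp only [Sum.map_inl, row, map_mul, mul_assoc, nv_mul]
  · simp only [Sum.map_inr, row]
    rw [mul_comm e, map_mul, mul_assoc, ← nw_mul (ch_ne h1 e)]

/-- **the boundary term has regularised sum zero** -/
theorem Ps_reg [DistribMulAction U Y] (hS : SYM) (h1 : ∀ u, ∏ i, ch u i = 1)
    (hi : Function.Injective em) (he : ∀ u x, em (u • x) = ch u * em x)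
    (hf : ∀ R : ℝ, {x | ‖em x‖ ≤ R}.Finite) {B c : ℝ} (hB : ∀ x, ‖φ x‖ ≤ B)
    (hφ : ∀ (u : U) x, φ (u • x) = φ x) (hc : 0 < c) (h : ∀ x, φ x ≠ 0 → c ≤ ‖lf l (em x)‖)
    {L : List U} (hz : ∀ a : Fin L.length → U, (∀ j, a j ∈ cb L) →
      ∃ d q, MZ φ d q ∧ ∀ j, lf (ch (a j) * l) (em d) = 0) :
    Reg (Ps ch l em φ k (pr .inl .inr (bd (cyc L)))) 0 := by
  let ψ : Ch U →+ ℂ := FreeAbelianGroup.lift fun L => rg (Ps ch l em φ k (pr .inl .inr (.of L)))
  let Z : AddSubgroup ((Y → ℂ) × ℂ) :=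
    { carrier := {z | Reg z.1 z.2}
      zero_mem' := Reg.zero
      add_mem' := Reg.add
      neg_mem' := Reg.neg }
  let Z' : AddSubgroup (Y → ℂ) :=
    { carrier := {z | ∃ s, Reg z s}
      zero_mem' := ⟨_, Reg.zero⟩
      add_mem' := fun a b => ⟨_, a.choose_spec.add b.choose_spec⟩
      neg_mem' := fun a => ⟨_, a.choose_spec.neg⟩ }
  have e : ∀ L, ψ (.of L) = rg (Ps ch l em φ k (pr .inl .inr (.of L))) := fun L =>
    FreeAbelianGroup.lift_apply_of _ _
  rw [← kill (L := L) ψ (by rw [e, pr_nil, map_zero, Reg.zero.rg_eq]) fun u _ =>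
    hom_ext (φ := ψ.comp (tr u)) fun L => by
      rw [AddMonoidHom.comp_apply, mp_of, e, e, ← mp_of, Ps_mp k h1 he hφ]
      exact rg_comp _ (DistribMulAction.toAddEquiv Y u)]
  refine sp_map (((Ps ch l em φ k).comp (pr .inl .inr)).prod ψ) Z (fun M hM => ?_) (bd_sp (cyc_cb L))
  obtain ⟨a, rfl⟩ := ex_ofFn hM.1
  obtain ⟨d, q, z1, z2⟩ := hz a fun j => hM.2 _ (List.mem_ofFn.2 ⟨j, rfl⟩)
  suffices r : Ps ch l em φ k (pr .inl .inr (.of (List.ofFn a))) ∈ Z' from
    r.choose_spec.congr (fun _ => rfl) ((e _).trans r.choose_spec.rg_eq)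
  refine sp_map (Ps ch l em φ k) Z' (fun M hM => ?_)
    (pr_sp (S := Set.range a) (T := {v | ∀ i, (fun x => row ch l v (em x) i) ∈ TT em φ d})
      (f := .inl) (g := .inr) ?_ (fun u _ => nw_TT (ch_ne h1 u))
      (of_sp ⟨hM.1, fun _ => List.mem_ofFn.1⟩))
  · by_cases w : M.length = n
    · obtain ⟨b, rfl⟩ := ex_ofFn w
      rw [Ps, co_ofFn]
      exact reg_T hS hi hf hB z1 (det_TT (fun j => hM.2 _ (List.mem_ofFn.2 ⟨j, rfl⟩)) _)
    · rw [Ps, co_ne _ w]
      exact zero_mem _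
  · rintro _ ⟨j, rfl⟩
    exact nv_TT _ hc (fun x w => by rw [lf_mul, ← he]; exact h _ (by rwa [hφ])) (z2 j)

end Vale.Agent.P004C.An.Ip
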