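import Mathlib

/-!
# P004 C, block AN: algebraic regularisation of series over a group
-/

set_option autoImplicit false

open Finset

namespace Vale.Agent.P004C.An

variable {X Y : Type*} [AddCommGroup X] [AddCommGroup Y] {g g' : X → ℂ} {s s' : ℂ}

/-- `s` is the regularised sum of `g` -/
def Reg (g : X → ℂ) (s : ℂ) : Prop := ∃ (κ : Type) (_ : Fintype κ) (c : κ → ℂ) (d : κ → X),
  ∑ i, c i ≠ 0 ∧ HasSum (fun x => ∑ i, c i * g (x + d i)) ((∑ i, c i) * s)

theorem hs_cv {κ : Type*} [Fintype κ] (c : κ → ℂ) (d : κ → X) (h : HasSum g s) :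
    HasSum (fun x => ∑ i, c i * g (x + d i)) ((∑ i, c i) * s) := by
  rw [sum_mul]
  exact hasSum_sum fun i _ => ((Equiv.addRight (d i)).hasSum_iff.2 h).mul_left _

namespace Reg

theorem of_hasSum (h : HasSum g s) : Reg g s :=
  ⟨Unit, inferInstance, 1, 0, by simp, hs_cv _ _ h⟩

theorem zero : Reg (0 : X → ℂ) 0 := of_hasSum hasSum_zero

theorem congr (h : Reg g s) (e : ∀ x, g' x = g x) (e' : s' = s) : Reg g' s' := by
  rwa [funext e, e']

/-- it is enough to regularise a smoothing -/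
theorem of_cv {κ : Type} [Fintype κ] {c : κ → ℂ} (d : κ → X) (hc : ∑ i, c i ≠ 0)
    (h : Reg (fun x => ∑ i, c i * g (x + d i)) ((∑ i, c i) * s)) : Reg g s := by
  obtain ⟨μ, _, a, b, h1, h2⟩ := h
  refine ⟨μ × κ, inferInstance, fun p => a p.1 * c p.2, fun p => b p.1 + d p.2, ?_, ?_⟩
  · rw [Fintype.sum_prod_type, ← sum_mul_sum]
    exact mul_ne_zero h1 hc
  · simpa only [Fintype.sum_prod_type, ← mul_sum, ← sum_mul, mul_assoc, add_assoc] using h2

theorem two (h : Reg g s) (h' : Reg g' s') : ∃ (κ : Type) (_ : Fintype κ) (c : κ → ℂ) (d : κ → X),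
    ∑ i, c i ≠ 0 ∧ HasSum (fun x => ∑ i, c i * g (x + d i)) ((∑ i, c i) * s) ∧
      HasSum (fun x => ∑ i, c i * g' (x + d i)) ((∑ i, c i) * s') := by
  obtain ⟨μ, _, a, b, h1, h2⟩ := h
  obtain ⟨κ, _, c, d, h3, h4⟩ := h'
  refine ⟨μ × κ, inferInstance, fun p => a p.1 * c p.2, fun p => b p.1 + d p.2, ?_, ?_, ?_⟩
  · rw [Fintype.sum_prod_type, ← sum_mul_sum]
    exact mul_ne_zero h1 h3
  · simpa only [Fintype.sum_prod_type_right, ← mul_sum, ← sum_mul, mul_assoc, add_assoc,
      mul_comm (a _) (c _), add_comm (b _)] using hs_cv c d h2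
  · simpa only [Fintype.sum_prod_type, ← mul_sum, ← sum_mul, mul_assoc, add_assoc] using
      hs_cv a b h4

theorem uniq (h : Reg g s) (h' : Reg g s') : s = s' := by
  obtain ⟨κ, _, c, d, h1, h2, h3⟩ := h.two h'
  exact mul_left_cancel₀ h1 (h2.unique h3)

theorem add (h : Reg g s) (h' : Reg g' s') : Reg (fun x => g x + g' x) (s + s') := by
  obtain ⟨κ, _, c, d, h1, h2, h3⟩ := h.two h'
  exact ⟨κ, _, c, d, h1, by simpa only [mul_add, sum_add_distrib] using h2.add h3⟩

theorem smul (h : Reg g s) (a : ℂ) : Reg (fun x => a * g x) (a * s) := by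
  obtain ⟨κ, _, c, d, h1, h2⟩ := h
  exact ⟨κ, _, c, d, h1, by simpa only [mul_sum, mul_left_comm a] using h2.mul_left a⟩

theorem neg (h : Reg g s) : Reg (fun x => -g x) (-s) := by simpa using h.smul (-1)

theorem sub (h : Reg g s) (h' : Reg g' s') : Reg (fun x => g x - g' x) (s - s') := by
  simpa only [sub_eq_add_neg] using h.add h'.neg

theorem sum {ι : Type*} (t : Finset ι) {g : ι → X → ℂ} {s : ι → ℂ} (h : ∀ i ∈ t, Reg (g i) (s i)) :
    Reg (fun x => ∑ i ∈ t, g i x) (∑ i ∈ t, s i) := by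
  classical
  induction t using Finset.induction_on with
  | empty => exact zero.congr (fun _ => rfl) rfl
  | insert a t ha ih =>
    simp only [sum_insert ha]
    exact (h a (mem_insert_self _ _)).add (ih fun i m => h i (mem_insert_of_mem m))

theorem shift (h : Reg g s) (y : X) : Reg (fun x => g (x + y)) s := by
  obtain ⟨κ, _, c, d, h1, h2⟩ := h
  exact ⟨κ, _, c, d, h1, by
    simpa only [Function.comp_def, Equiv.coe_addRight, add_right_comm _ y] using
      (Equiv.addRight y).hasSum_iff.2 h2⟩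

theorem cv {κ : Type*} [Fintype κ] (c : κ → ℂ) (d : κ → X) (h : Reg g s) :
    Reg (fun x => ∑ i, c i * g (x + d i)) ((∑ i, c i) * s) := by
  rw [sum_mul]
  exact sum _ fun i _ => (h.shift _).smul _

theorem comp (h : Reg g s) (e : Y ≃+ X) : Reg (fun y => g (e y)) s := by
  obtain ⟨κ, _, c, d, h1, h2⟩ := h
  exact ⟨κ, _, c, fun i => e.symm (d i), h1, by
    simpa [Function.comp_def] using e.toEquiv.hasSum_iff.2 h2⟩

/-- functions supported on a coset of a subgroup -/
theorem ext (f : Y →+ X) (hf : Function.Injective f) (r : X)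
    (h0 : ∀ x, g x ≠ 0 → ∃ y, x = r + f y) (h : Reg (fun y => g (r + f y)) s) : Reg g s := by
  obtain ⟨κ, _, c, d, h1, h2⟩ := h
  refine ⟨κ, _, c, fun i => f (d i), h1,
    (((add_right_injective r).comp hf).hasSum_iff fun x hx => ?_).1 ?_⟩
  · refine sum_eq_zero fun i _ => mul_eq_zero_of_right _ (not_not.1 fun k => hx ?_)
    obtain ⟨y, e⟩ := h0 _ k
    exact ⟨y - d i, by simp [add_sub, ← e]⟩
  · simpa only [Function.comp_def, map_add, add_assoc] using h2

/-- the sum over the cosets -/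
theorem cosets (f : Y →+ X) (hf : Function.Injective f) {κ : Type*} [Fintype κ] (r : κ → X)
    (hr : ∀ x, g x ≠ 0 → ∃! i, ∃ y, x = r i + f y) {s : κ → ℂ}
    (h : ∀ i, Reg (fun y => g (r i + f y)) (s i)) : Reg g (∑ i, s i) := by
  classical
  refine (sum univ (g := fun i x => if ∃ y, x = r i + f y then g x else 0) fun i _ =>
    ext f hf (r i) (fun x k => not_not.1 fun n => k (if_neg n))
      ((h i).congr (fun y => if_pos ⟨y, rfl⟩) rfl)).congr (fun x => ?_) rfl
  by_cases k : g x = 0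
  · simp [k]
  · obtain ⟨i, a, b⟩ := hr x k
    rw [sum_eq_single i (fun j _ n => if_neg fun e => n (b j e)) (by simp), if_pos a]

end Reg

theorem hs_mul {α β : Type*} {f : α → ℂ} {g : β → ℂ} {a b : ℂ} (h : HasSum f a) (k : HasSum g b) :
    HasSum (fun x : α × β => f x.1 * g x.2) (a * b) :=
  h.mul k (summable_mul_of_summable_norm h.summable.norm k.summable.norm)

theorem hs_pi {n : ℕ} {X : Fin n → Type*} {g : ∀ j, X j → ℂ} {s : Fin n → ℂ}
    (h : ∀ j, HasSum (g j) (s j)) : HasSum (fun x : ∀ j, X j => ∏ j, g j (x j)) (∏ j, s j) := by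
  induction n with
  | zero => simp
  | succ n ih =>
    have k := ih (X := fun j => X j.succ) (g := fun j => g j.succ) fun j => h j.succ
    have e := hs_mul (h 0) k
    rw [← (Fin.consEquiv X).hasSum_iff, Fin.prod_univ_succ]
    convert e using 1
    funext x
    simp [Fin.prod_univ_succ, Fin.consEquiv]

/-- products -/
theorem Reg.pi {n : ℕ} {X : Fin n → Type*} [∀ j, AddCommGroup (X j)] {g : ∀ j, X j → ℂ}
    {s : Fin n → ℂ} (h : ∀ j, Reg (g j) (s j)) :
    Reg (fun x : ∀ j, X j => ∏ j, g j (x j)) (∏ j, s j) := by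
  choose κ _ c d h1 h2 using h
  have e : ∑ i : ∀ j, κ j, ∏ j, c j (i j) = ∏ j, ∑ i, c j i := (Fintype.prod_sum _).symm
  refine ⟨∀ j, κ j, inferInstance, fun i => ∏ j, c j (i j), fun i j => d j (i j), ?_, ?_⟩
  · rw [e]
    exact prod_ne_zero_iff.2 fun j _ => h1 j
  · rw [e, ← prod_mul_distrib]
    refine (hs_pi h2).congr_fun fun x => ?_
    simp only [Fintype.prod_sum, prod_mul_distrib, Pi.add_apply]

open Classical in
/-- the regularised sum as a function -/
noncomputable def rg (g : X → ℂ) : ℂ := if h : ∃ s, Reg g s then h.choose else 0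

theorem Reg.rg_eq (h : Reg g s) : rg g = s := by
  have k : ∃ s, Reg g s := ⟨s, h⟩
  rw [rg, dif_pos k, k.choose_spec.uniq h]

theorem rg_comp (g : X → ℂ) (e : Y ≃+ X) : rg (fun y => g (e y)) = rg g := by
  by_cases h : ∃ s, Reg g s
  · obtain ⟨s, h⟩ := h
    rw [h.rg_eq, (h.comp e).rg_eq]
  · rw [rg, rg, dif_neg h, dif_neg fun ⟨s, k⟩ => h ⟨s, by simpa using k.comp e.symm⟩]

end Vale.Agent.P004C.An
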