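import Vale.Agent.P004C.An.Ch
import Vale.Agent.P004C.An.Reg

/-!
# P004 C, block AN: the rational cocycle and the texts of the analytic rows
-/

set_option autoImplicit false

open Finset MvPowerSeries
open scoped ContDiff

noncomputable section

namespace Vale.Agent.P004C.An

/-- a linear form -/
def lf {n : ℕ} (l x : Fin n → ℂ) : ℂ := ∑ i, l i * x i

/-- the Taylor series at `x` of `det l / ∏ l j` -/
def cs {n : ℕ} (l : Fin n → Fin n → ℂ) (x : Fin n → ℂ) : MvPowerSeries (Fin n) ℂ :=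
  C (Matrix.of l).det * ∏ j, (C (lf (l j) x) + ∑ i, C (l j i) * X i)⁻¹

/-- the exponent `(k - 1, .., k - 1)` -/
def dg (n k : ℕ) : Fin n →₀ ℕ := Finsupp.equivFunOnFinite.symm fun _ => k - 1

/-- the weight `k` cocycle -/
def ck {n : ℕ} (k : ℕ) (l : Fin n → Fin n → ℂ) (x : Fin n → ℂ) : ℂ := coeff (dg n k) (cs l x)

/-- the vertices of the cube: products of sublists -/
def cb {G : Type*} [CommGroup G] : List G → Set G
  | [] => {1}
  | e :: L => cb L ∪ (e * ·) '' cb L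

/-- mean zero along `d` -/
def MZ {X : Type*} [AddCommGroup X] (φ : X → ℂ) (d : X) (q : ℕ) : Prop :=
  0 < q ∧ ∀ x, ∑ t ∈ range q, φ (x + t • d) = 0

/-- smooth off the origin and homogeneous of degree `-b s` -/
def Hm {E : Type*} [NormedAddCommGroup E] [NormedSpace ℝ E] (b : ℂ → ℂ) (G : ℂ × E → ℂ) : Prop :=
  ContDiffOn ℝ ∞ G {p | p.2 ≠ 0} ∧ ∀ (s : ℂ) (x : E) (t : ℝ), 0 < t → x ≠ 0 →
    G (s, t • x) = Complex.exp (-b s * Real.log t) * G (s, x)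

/-- homogeneous functions on lattices are summable, resp. regularisable -/
def SYM : Prop := ∀ (E : Type) [NormedAddCommGroup E] [NormedSpace ℝ E] [FiniteDimensional ℝ E]
  (X : Type) [AddCommGroup X] (em : X →+ E), Function.Injective em →
  (∀ R : ℝ, {x | ‖em x‖ ≤ R}.Finite) → ∀ (b : ℂ → ℂ) (G : ℂ × E → ℂ) (ψ : X → ℂ) (B : ℝ),
  Hm b G → (∀ x, ‖ψ x‖ ≤ B) →
  (∀ s, (Module.finrank ℝ E : ℝ) < (b s).re → Summable fun x => ψ x * G (s, em x)) ∧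
  ∀ (d : X) (q : ℕ) (W : Set ℂ), MZ ψ d q → IsOpen W → (∀ s ∈ W, 0 ≤ (b s).re) →
    (∀ x, DifferentiableOn ℂ (fun s => G (s, x)) W) →
    ∃ D : ℂ → ℂ, DifferentiableOn ℂ D W ∧ ∀ s ∈ W, Reg (fun x => ψ x * G (s, em x)) (D s)

/-- the degree of the fundamental cycle is `±1` -/
def DEG : Prop := ∀ (p : ℕ) (U : Type) [CommGroup U] (y : U → Fin (p + 1) → ℝ) (ε : Fin p → U),
  (∀ u v, y (u * v) = y u + y v) →
  LinearIndependent ℝ (Fin.cons 1 fun j => y (ε j) : Fin (p + 1) → Fin (p + 1) → ℝ) →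
  ∃ η : ℂ, (η = 1 ∨ η = -1) ∧ ∀ (ρ : U → Fin (p + 1) → ℂ) (c : ℝ), (∀ u, ∑ i, ρ u i = 1) →
    (∀ u i i', ρ u i ≠ 0 → y u i' ≤ y u i + c) →
    HasSum (fun m : Fin p → ℤ => co (fun a : Fin (p + 1) → U => (Matrix.of fun j => ρ (a j)).det)
      (tr (∏ j, ε j ^ m j) (cyc (List.ofFn ε)))) η

/-- **interpolation**: the regularised sum of the cocycle on the cycle is the `L`-value -/
def IPL : Prop := ∀ (p : ℕ) (U : Type) [CommGroup U] (ch : U →* (Fin (p + 1) → ℂ)) (ε : Fin p → U),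
  (∀ u, ∏ i, ch u i = 1) → (∀ u, ∃! m : Fin p → ℤ, u = ∏ j, ε j ^ m j) →
  (∀ R : ℝ, {u | ‖ch u‖ ≤ R}.Finite) → ∃ η : ℂ, (η = 1 ∨ η = -1) ∧
  ∀ (X : Type) [AddCommGroup X] [DistribMulAction U X] (em : X →+ (Fin (p + 1) → ℂ))
    (l : Fin (p + 1) → ℂ) (φ : X → ℂ) (B c : ℝ) (κ : Type) (r : κ → X) (k : ℕ),
    Function.Injective em → (∀ u x, em (u • x) = ch u * em x) → (∀ R : ℝ, {x | ‖em x‖ ≤ R}.Finite) →
    (∀ x, ‖φ x‖ ≤ B) → (∀ (u : U) x, φ (u • x) = φ x) → 0 < c →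
    (∀ x, φ x ≠ 0 → (∀ i, em x i ≠ 0) ∧ c ≤ ‖lf l (em x)‖) →
    (∀ a : Fin p → U, (∀ j, a j ∈ cb (List.ofFn ε)) →
      ∃ d q, MZ φ d q ∧ ∀ j, lf (ch (a j) * l) (em d) = 0) →
    (Function.Injective fun z : κ × U => z.2 • r z.1) → (∀ x, φ x ≠ 0 → ∃ i, ∃ u : U, x = u • r i) →
    0 < k → ∃ D : ℂ → ℂ, DifferentiableOn ℂ D {s | 0 < (k : ℝ) + 2 * s.re} ∧
      (∀ s : ℂ, 2 < (k : ℝ) + 2 * s.re → HasSum (fun i => φ (r i) / (∏ j, em (r i) j) ^ k *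
        ((‖∏ j, em (r i) j‖ ^ 2 : ℝ) : ℂ) ^ (-s)) (D s)) ∧
      Reg (fun x => φ x * co (fun a : Fin (p + 1) → U => ck k (fun j => ch (a j) * l) (em x))
        (cyc (List.ofFn ε))) (η * (-1) ^ ((p + 1) * (k - 1)) * D 0)

end Vale.Agent.P004C.An
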