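import Vale.Agent.P004C.An.Cs

/-!
# P004 C, block AN: cut-off weights
-/

set_option autoImplicit false

open Finset Complex Filter Topology
open scoped ContDiff

noncomputable section

namespace Vale.Agent.P004C.An

namespace Hm

variable {E : Type*} [NormedAddCommGroup E] [NormedSpace ℝ E] {b b' : ℂ → ℂ} {G G' : ℂ × E → ℂ}

theorem const (c : ℂ) : Hm 0 fun _ : ℂ × E => c := ⟨contDiffOn_const, by simp⟩

theorem zero : Hm b (0 : ℂ × E → ℂ) := ⟨contDiffOn_const, by simp⟩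

theorem add (h : Hm b G) (h' : Hm b G') : Hm b (G + G') :=
  ⟨h.1.add h'.1, fun s x t a c => by simp only [Pi.add_apply, h.2 s x t a c, h'.2 s x t a c, mul_add]⟩

theorem mul (h : Hm b G) (h' : Hm b' G') : Hm (b + b') (G * G') :=
  ⟨h.1.mul h'.1, fun s x t a c => by
    simp only [Pi.mul_apply, Pi.add_apply, h.2 s x t a c, h'.2 s x t a c, neg_add, add_mul, exp_add]
    ring⟩

theorem neg (h : Hm b G) : Hm b (-G) :=
  ⟨h.1.neg, fun s x t a c => by simp only [Pi.neg_apply, h.2 s x t a c, mul_neg]⟩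

theorem frz (h : Hm b G) (s : ℂ) : Hm (fun _ => b s) fun p => G (s, p.2) :=
  ⟨h.1.comp (by fun_prop) fun _ k => k, fun _ => h.2 s⟩

theorem prod {ι : Type*} (t : Finset ι) {G : ι → ℂ × E → ℂ} (h : ∀ i, Hm b (G i)) :
    Hm (t.card • b) (∏ i ∈ t, G i) := by
  classical
  induction t using Finset.induction_on with
  | empty => rw [card_empty, zero_nsmul]; exact const (E := E) 1
  | insert a t ha ih =>
    rw [prod_insert ha, card_insert_of_notMem ha, succ_nsmul']
    exact (h a).mul ih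

end Hm

variable {n : ℕ} {x : Fin n → ℂ}

/-- the euclidean form -/
def qq (x : Fin n → ℂ) : ℝ := ∑ i, normSq (x i)

/-- the bump -/
def be (x : Fin n → ℂ) (i : Fin n) : ℝ := expNegInvGlue (2 * n * normSq (x i) / qq x - 1)

/-- the weights -/
def wt (x : Fin n → ℂ) (i : Fin n) : ℂ := (be x i / ∑ j, be x j : ℝ)

theorem le_qq (x : Fin n → ℂ) (i : Fin n) : normSq (x i) ≤ qq x :=
  single_le_sum (f := fun i => normSq (x i)) (fun _ _ => normSq_nonneg _) (mem_univ i)

theorem qq_pos (h : x ≠ 0) : 0 < qq x := by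
  obtain ⟨i, k⟩ := Function.ne_iff.1 h
  exact (normSq_pos.2 k).trans_le (le_qq x i)

theorem be_pos (h : x ≠ 0) : 0 < ∑ j, be x j := by
  obtain ⟨i, -⟩ := Function.ne_iff.1 h
  obtain ⟨j, -, k⟩ := exists_max_image univ (fun i => normSq (x i)) ⟨i, mem_univ i⟩
  have e : qq x ≤ n * normSq (x j) := by
    simpa [qq] using sum_le_card_nsmul univ _ _ k
  have q := qq_pos h
  refine sum_pos' (fun _ _ => expNegInvGlue.nonneg _) ⟨j, mem_univ j, expNegInvGlue.pos_of_pos ?_⟩
  rw [sub_pos, one_lt_div q]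
  linarith

theorem wt_sum (h : x ≠ 0) : ∑ i, wt x i = 1 := by
  simp only [wt]
  rw [← ofReal_sum, ← sum_div, div_self (be_pos h).ne', ofReal_one]

theorem wt_zero {i : Fin n} (h : 2 * n * normSq (x i) ≤ qq x) : wt x i = 0 := by
  rw [wt, be, expNegInvGlue.zero_of_nonpos (sub_nonpos.2 (div_le_one_of_le₀ h
    ((normSq_nonneg _).trans (le_qq x i)))), zero_div, ofReal_zero]

theorem wt_smul {t : ℝ} (ht : 0 < t) (x : Fin n → ℂ) : wt (t • x) = wt x := by
  have e : be (t • x) = be x := funext fun i => by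
    simp only [be, qq, Pi.smul_apply, real_smul, map_mul, ← mul_sum, normSq_ofReal]
    rw [mul_left_comm, mul_div_mul_left _ _ (by positivity)]
  exact funext fun i => by rw [wt, e, wt]

theorem cd_nq (i : Fin n) : ContDiff ℝ ∞ fun x : Fin n → ℂ => normSq (x i) := by
  have a : ContDiff ℝ ∞ fun x : Fin n → ℂ => (x i).re := reCLM.contDiff.comp (by fun_prop)
  have b : ContDiff ℝ ∞ fun x : Fin n → ℂ => (x i).im := imCLM.contDiff.comp (by fun_prop)
  exact (a.mul a).add (b.mul b)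

theorem cd_qq : ContDiff ℝ ∞ (qq (n := n)) := ContDiff.sum fun i _ => cd_nq i

theorem cd_wt (h : x ≠ 0) (i : Fin n) : ContDiffAt ℝ ∞ (fun x : Fin n → ℂ => wt x i) x := by
  have a : ∀ i, ContDiffAt ℝ ∞ (fun x : Fin n → ℂ => be x i) x := fun i =>
    expNegInvGlue.contDiff.contDiffAt.comp x
      (((contDiffAt_const.mul (cd_nq i).contDiffAt).div cd_qq.contDiffAt (qq_pos h).ne').sub
        contDiffAt_const)
  exact ofRealCLM.contDiff.contDiffAt.comp x
    ((a i).div (ContDiffAt.sum fun j _ => a j) (be_pos h).ne')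

/-- `z ^ (-m) |z| ^ (-2 s)` -/
def nf (m : ℕ) (s z : ℂ) : ℂ := z⁻¹ ^ m * exp (-s * Real.log (normSq z))

theorem nf_mul (m : ℕ) (s : ℂ) {z w : ℂ} (hz : z ≠ 0) (hw : w ≠ 0) :
    nf m s (z * w) = nf m s z * nf m s w := by
  rw [nf, nf, nf, map_mul, Real.log_mul (normSq_pos.2 hz).ne' (normSq_pos.2 hw).ne', ofReal_add,
    mul_add, exp_add, mul_inv, mul_pow]
  ring

theorem nf_prod (m : ℕ) (s : ℂ) (h : ∀ i, x i ≠ 0) (t : Finset (Fin n)) :
    nf m s (∏ i ∈ t, x i) = ∏ i ∈ t, nf m s (x i) :=  by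
  induction t using Finset.induction_on with
  | empty => simp [nf]
  | insert a t ha ih =>
    rw [prod_insert ha, prod_insert ha, nf_mul _ _ (h a) (prod_ne_zero_iff.2 fun i _ => h i), ih]

theorem nf_real (m : ℕ) (s : ℂ) {t : ℝ} (ht : 0 < t) :
    nf m s t = exp (-(m + 2 * s) * Real.log t) := by
  have e : (t : ℂ) = exp (Real.log t) := by rw [← ofReal_exp, Real.exp_log ht]
  rw [nf, normSq_ofReal, Real.log_mul ht.ne' ht.ne', e, ← exp_neg, ← exp_nat_mul, ← exp_add]
  push_cast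
  ring_nf

theorem nf_eq (m : ℕ) (s : ℂ) {z : ℂ} (h : z ≠ 0) :
    nf m s z = 1 / z ^ m * ((‖z‖ ^ 2 : ℝ) : ℂ) ^ (-s) := by
  rw [nf, ← normSq_eq_norm_sq, cpow_def_of_ne_zero (ofReal_ne_zero.2 (normSq_pos.2 h).ne'),
    ← ofReal_log (normSq_nonneg _), one_div, inv_pow, mul_comm (-s)]

/-- the basic homogeneous function -/
def gg (u : Fin n → ℂ) (i : Fin n) (m : ℕ) (p : ℂ × (Fin n → ℂ)) : ℂ :=
  nf m p.1 (p.2 i) * wt (u * p.2) i

theorem mul_ne {u : Fin n → ℂ} (hu : ∀ i, u i ≠ 0) (h : x ≠ 0) : u * x ≠ 0 := fun e =>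
  h (funext fun i => (mul_eq_zero.1 (congrFun e i)).resolve_left (hu i))

theorem hm_gg {u : Fin n → ℂ} (hu : ∀ i, u i ≠ 0) (i : Fin n) (m : ℕ) :
    Hm (fun s => m + 2 * s) (gg u i m) := by
  refine ⟨fun p hp => ContDiffAt.contDiffWithinAt ?_, fun s x t ht hx => ?_⟩
  · have c : ContDiff ℝ ∞ fun p : ℂ × (Fin n → ℂ) => u * p.2 := by fun_prop
    by_cases h : p.2 i = 0
    · refine (contDiffAt_const (c := 0)).congr_of_eventuallyEq ?_
      filter_upwards [((continuous_const.mul ((cd_nq i).comp c).continuous).continuousAt (x := p)).eventually_lt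
        (cd_qq.comp c).continuous.continuousAt (by simpa [h] using qq_pos (mul_ne hu hp))] with q hq
      exact mul_eq_zero_of_right _ (wt_zero hq.le)
    · have a : ContDiffAt ℝ ∞ (fun p : ℂ × (Fin n → ℂ) => (p.2 i)⁻¹) p :=
        ContDiffAt.inv (f := fun p : ℂ × (Fin n → ℂ) => p.2 i) (by fun_prop) h
      have b : ContDiffAt ℝ ∞ (fun p : ℂ × (Fin n → ℂ) => (Real.log (normSq (p.2 i)) : ℂ)) p :=
        ofRealCLM.contDiff.contDiffAt.comp p
          (((cd_nq i).comp contDiff_snd).contDiffAt.log (normSq_pos.2 h).ne')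
      exact ((a.pow m).mul (contDiffAt_fst.neg.mul b).cexp).mul
        (ContDiffAt.comp (g := fun x => wt x i) p (cd_wt (mul_ne hu hp) i) c.contDiffAt)
  · simp only [gg, mul_smul_comm, wt_smul ht, Pi.smul_apply, real_smul]
    by_cases h : x i = 0
    · rw [wt_zero (by simpa [h] using (qq_pos (mul_ne hu hx)).le), mul_zero, mul_zero, mul_zero]
    · rw [nf_mul _ _ (ofReal_ne_zero.2 ht.ne') h, nf_real _ _ ht, mul_assoc]

theorem df_gg (u : Fin n → ℂ) (i : Fin n) (m : ℕ) (x : Fin n → ℂ) :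
    Differentiable ℂ fun s => gg u i m (s, x) := by
  simp only [gg, nf]
  fun_prop

/-- cut-off in logarithmic coordinates -/
theorem wt_log (h : ∀ i, x i ≠ 0) {i : Fin n} (k : wt x i ≠ 0) (j : Fin n) :
    Real.log (normSq (x j)) ≤ Real.log (2 * n) + Real.log (normSq (x i)) := by
  have : (0 : ℝ) < n := Nat.cast_pos.2 i.pos
  rw [← Real.log_mul (by positivity) (normSq_pos.2 (h i)).ne']
  exact Real.log_le_log (normSq_pos.2 (h j))
    ((le_qq x j).trans (not_le.1 fun e => k (wt_zero e)).le)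

end Vale.Agent.P004C.An
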